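import Vale.Agent.P165.Critical

/-!
# Finite-volume connection probabilities
-/

namespace Vale.Agent.P165FreeProd

open Vale.Agent.P165

section
variable {α : Type*} [DecidableEq α] {E F : Finset α} {p : ℝ} {A B : Finset α → Prop}

/-- Increasing events are positively correlated. -/
theorem harris (h0 : 0 ≤ p) (h1 : p ≤ 1) : ∀ (E : Finset α) {A B : Finset α → Prop},
    Monotone A → Monotone B → Pr E p A * Pr E p B ≤ Pr E p (fun s => A s ∧ B s) := by
  intro E
  induction E using Finset.induction with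
  | empty =>
    intro A B _ _
    by_cases hA : A ∅ <;> by_cases hB : B ∅ <;> simp [Pr, hA, hB]
  | @insert e E he ih =>
    intro A B hA hB
    rw [Pr_insert he, Pr_insert he, Pr_insert he]
    have hA' : Monotone fun s => A (insert e s) := fun s t h => hA (Finset.insert_subset_insert _ h)
    have hB' : Monotone fun s => B (insert e s) := fun s t h => hB (Finset.insert_subset_insert _ h)
    have i1 := ih hA hB
    have i2 := ih hA' hB'
    have a : Pr E p A ≤ Pr E p (fun s => A (insert e s)) :=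
      Pr_mono h0 h1 fun s _ h => hA (Finset.subset_insert _ _) h
    have b : Pr E p B ≤ Pr E p (fun s => B (insert e s)) :=
      Pr_mono h0 h1 fun s _ h => hB (Finset.subset_insert _ _) h
    have h2 := mul_le_mul_of_nonneg_left i1 (sub_nonneg.2 h1)
    have h3 := mul_le_mul_of_nonneg_left i2 h0
    nlinarith [mul_nonneg (mul_nonneg h0 (sub_nonneg.2 h1))
      (mul_nonneg (sub_nonneg.2 a) (sub_nonneg.2 b))]

theorem continuous_Pr (E : Finset α) (A : Finset α → Prop) : Continuous fun p => Pr E p A :=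
  continuous_iff_continuousAt.2 fun p => (hasDerivAt_Pr E A p).continuousAt

theorem Pr_mono_param {q : ℝ} (hA : Monotone A) (h0 : 0 ≤ p) (hpq : p ≤ q) (h1 : q ≤ 1) :
    Pr E p A ≤ Pr E q A := by
  have : MonotoneOn (fun t => Pr E t A) (Set.Icc 0 1) := by
    refine monotoneOn_of_deriv_nonneg (convex_Icc _ _)
      (continuous_Pr E A).continuousOn
      (fun t _ => (hasDerivAt_Pr E A t).differentiableAt.differentiableWithinAt) fun t ht => ?_
    rw [interior_Icc] at ht
    rw [(hasDerivAt_Pr E A t).deriv]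
    refine Finset.sum_nonneg fun e _ => sub_nonneg.2 ?_
    exact Pr_mono ht.1.le ht.2.le fun s _ h => hA (Finset.subset_insert _ _) h
  exact this ⟨h0, hpq.trans h1⟩ ⟨h0.trans hpq, h1⟩ hpq

theorem Pr_le_of_subset (hFE : F ⊆ E) (h0 : 0 ≤ p) (h1 : p ≤ 1) (hA : Monotone A) :
    Pr F p A ≤ Pr E p A := by
  have h := Pr_sdiff_le (E := E) (F := E \ F) Finset.sdiff_subset h0 h1 hA
  rwa [Finset.sdiff_sdiff_eq_self hFE] at h

theorem Pr_restrict (hFE : F ⊆ E) (A : Finset α → Prop) :
    Pr E p (fun s => A (s ∩ F)) = Pr F p A := by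
  have h := Pr_union (p := p) F (E \ F) Finset.sdiff_disjoint (fun _ => True)
    (fun s => A (s ∩ F)) (fun _ _ => Iff.rfl) (fun s _ => by rw [Finset.inter_assoc,
      Finset.inter_self])
  rw [Finset.sdiff_union_of_subset hFE, Pr_true, one_mul] at h
  simp only [true_and] at h
  rw [h]
  exact Pr_congr fun s hs => by rw [Finset.inter_eq_left.2 hs]

theorem Pr_image {β : Type*} [DecidableEq β] (f : α → β) (hf : Function.Injective f)
    (E : Finset α) (A : Finset β → Prop) :
    Pr (E.image f) p A = Pr E p (fun s => A (s.image f)) := by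
  classical
  simp only [Pr]
  rw [Finset.powerset_image, Finset.sum_image fun s _ t _ h => Finset.image_injective hf h]
  exact Finset.sum_congr rfl fun s _ => by
    rw [Finset.card_image_of_injective _ hf, Finset.card_image_of_injective _ hf]

end

variable {V : Type*} [DecidableEq V] {G : SimpleGraph V} {nb : V → Finset V}

/-- Connection probability using the edges inside `Λ`. -/
noncomputable def tauS (nb : V → Finset V) (Λ : Finset V) (p : ℝ) (x y : V) : ℝ :=
  Pr (edgesIn nb Λ) p (Conn x y)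

theorem edgesIn_mono (h : LF G nb) {Λ Λ' : Finset V} (hs : Λ ⊆ Λ') :
    edgesIn nb Λ ⊆ edgesIn nb Λ' := by
  intro e he
  induction e using Sym2.ind with
  | _ a b =>
    obtain ⟨h1, h2, h3⟩ := (mem_edgesIn h).1 he
    exact (mem_edgesIn h).2 ⟨h1, hs h2, hs h3⟩

theorem tauS_mono (h : LF G nb) {p : ℝ} (h0 : 0 ≤ p) (h1 : p ≤ 1) {Λ Λ' : Finset V} (hs : Λ ⊆ Λ')
    (x y : V) : tauS nb Λ p x y ≤ tauS nb Λ' p x y :=
  Pr_le_of_subset (edgesIn_mono h hs) h0 h1 (conn_mono x y)

theorem tauS_nonneg {p : ℝ} (h0 : 0 ≤ p) (h1 : p ≤ 1) (Λ : Finset V) (x y : V) :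
    0 ≤ tauS nb Λ p x y := Pr_nonneg h0 h1 _

theorem tauS_le_one {p : ℝ} (h0 : 0 ≤ p) (h1 : p ≤ 1) (Λ : Finset V) (x y : V) :
    tauS nb Λ p x y ≤ 1 :=
  (Pr_mono h0 h1 (B := fun _ => True) fun _ _ _ => trivial).trans_eq Pr_true

open Classical in
/-- The cluster of `o` using the edges of `s` inside `S`. -/
noncomputable def clu (nb : V → Finset V) (S : Finset V) (o : V) (s : Finset (Sym2 V)) :
    Finset V :=
  S.filter fun v => Conn o v (s ∩ edgesIn nb S)

theorem last_exit {H : SimpleGraph V} (C : V → Prop) {a b : V} (q : H.Walk a b) :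
    (∀ v ∈ q.support, ¬ C v) ∨ C b ∨
      ∃ x y, C x ∧ ¬ C y ∧ H.Adj x y ∧ ∃ r : H.Walk y b, ∀ v ∈ r.support, ¬ C v := by
  induction q with
  | @nil u => by_cases hu : C u <;> simp [hu]
  | @cons u v w huv q ih =>
    rcases ih with h | h | h
    · by_cases hu : C u
      · exact Or.inr (Or.inr ⟨u, v, hu, h v q.start_mem_support, huv, q, h⟩)
      · refine Or.inl fun z hz => ?_
        rw [SimpleGraph.Walk.support_cons, List.mem_cons] at hz
        rcases hz with rfl | hz
        exacts [hu, h z hz]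
    · exact Or.inr (Or.inl h)
    · exact Or.inr (Or.inr h)

theorem mem_clu {S : Finset V} {o v : V} {s : Finset (Sym2 V)} :
    v ∈ clu nb S o s ↔ v ∈ S ∧ Conn o v (s ∩ edgesIn nb S) := by
  classical
  simp [clu]

open Classical in
/-- The inequality of the first exit from a finite set. -/
theorem exit_le (h : LF G nb) {p : ℝ} (h0 : 0 ≤ p) (h1 : p ≤ 1) {S Λ : Finset V} {o z : V}
    (ho : o ∈ S) (hz : z ∉ S) :
    tauS nb Λ p o z ≤ p * ∑ x ∈ S, tauS nb S p o x *
      ∑ y ∈ (nb x).filter (· ∉ S), tauS nb Λ p y z := by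
  set E := edgesIn nb Λ with hE
  set I := edgesIn nb S with hI
  set away : Finset V → Finset (Sym2 V) := fun C => E.filter fun e => ∀ v ∈ e, v ∉ C
  have hsplit : ∀ s ⊆ E, Conn o z s → ∃ x ∈ S, ∃ y ∈ (nb x).filter (· ∉ S),
      ∃ C ∈ S.powerset.filter (x ∈ ·),
        clu nb S o s = C ∧ s(x, y) ∈ s ∧ Conn y z (s ∩ away C) := by
    intro s hs hc
    obtain ⟨q⟩ := hc
    set C := clu nb S o s
    have hoC : o ∈ C := mem_clu.2 ⟨ho, SimpleGraph.Reachable.refl _⟩
    have hzC : z ∉ C := fun h' => hz (mem_clu.1 h').1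
    rcases last_exit (· ∈ C) q with hq | hq | ⟨x, y, hx, hy, hxy, r, hr⟩
    · exact absurd hoC (hq o q.start_mem_support)
    · exact absurd hq hzC
    have hxS := (mem_clu.1 hx).1
    have hG : G.Adj x y := ((mem_edgesIn h).1 (hs (edgeGraph_adj.1 hxy).1)).1
    have hyS : y ∉ S := fun hyS => hy (mem_clu.2 ⟨hyS, (mem_clu.1 hx).2.trans
      (SimpleGraph.Adj.reachable (edgeGraph_adj.2 ⟨Finset.mem_inter.2 ⟨(edgeGraph_adj.1 hxy).1,
        (mem_edgesIn h).2 ⟨hG, hxS, hyS⟩⟩, hG.ne⟩))⟩)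
    refine ⟨x, hxS, y, Finset.mem_filter.2 ⟨h.mem.2 hG, hyS⟩, C, Finset.mem_filter.2
      ⟨Finset.mem_powerset.2 (fun v hv => (mem_clu.1 hv).1), hx⟩, rfl, (edgeGraph_adj.1 hxy).1,
      conn_of_edges r fun e he => Finset.mem_inter.2 ⟨walk_edges_subset r (List.mem_toFinset.2 he),
        Finset.mem_filter.2 ⟨hs (walk_edges_subset r (List.mem_toFinset.2 he)), fun v hv => ?_⟩⟩⟩
    exact hr v (r.mem_support_of_mem_edges he hv)
  refine (Pr_mono h0 h1 hsplit).trans ((Pr_exists h0 h1 _ _).trans ?_)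
  rw [Finset.mul_sum]
  refine Finset.sum_le_sum fun x hx => (Pr_exists h0 h1 _ _).trans ?_
  rw [Finset.mul_sum, Finset.mul_sum]
  refine Finset.sum_le_sum fun y hy => (Pr_exists h0 h1 _ _).trans ?_
  obtain ⟨hxy, hyS⟩ := Finset.mem_filter.1 hy
  set T := tauS nb Λ p y z
  have hT : 0 ≤ T := Pr_nonneg h0 h1 _
  have key : ∀ C ∈ S.powerset.filter (x ∈ ·),
      Pr E p (fun s => clu nb S o s = C ∧ s(x, y) ∈ s ∧ Conn y z (s ∩ away C)) ≤
        Pr E p (fun s => clu nb S o s = C) * (p * T) := by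
    intro C hC
    obtain ⟨hCS, hxC⟩ := Finset.mem_filter.1 hC
    have hCS' := Finset.mem_powerset.1 hCS
    set E1 := E.filter fun e => e ∈ I ∧ ∃ v ∈ e, v ∈ C
    by_cases he : s(x, y) ∈ E
    swap
    · rw [Pr_congr (B := fun _ => False) fun s hs => ⟨fun hh => he (hs hh.2.1), False.elim⟩,
        Pr_false]
      exact mul_nonneg (Pr_nonneg h0 h1 _) (mul_nonneg h0 hT)
    have hdep : ∀ s ⊆ E, (clu nb S o s = C ↔ clu nb S o (s ∩ E1) = C) := by
      intro s hs
      have hsub : ∀ v, v ∈ clu nb S o (s ∩ E1) → v ∈ clu nb S o s := fun v hv =>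
        mem_clu.2 ⟨(mem_clu.1 hv).1, conn_mono o v
          (Finset.inter_subset_inter_right Finset.inter_subset_left) (mem_clu.1 hv).2⟩
      have hstep : ∀ a b, a ∈ C → (edgeGraph (s ∩ I)).Adj a b → s(a, b) ∈ s ∩ E1 ∩ I :=
        fun a b ha hab => by
          obtain ⟨hm, -⟩ := edgeGraph_adj.1 hab
          obtain ⟨hm1, hm2⟩ := Finset.mem_inter.1 hm
          exact Finset.mem_inter.2 ⟨Finset.mem_inter.2 ⟨hm1, Finset.mem_filter.2
            ⟨hs hm1, hm2, a, Sym2.mem_mk_left _ _, ha⟩⟩, hm2⟩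
      constructor
      · intro hh
        refine Finset.Subset.antisymm (fun v hv => hh ▸ hsub v hv) fun v hv => ?_
        have hv' : v ∈ clu nb S o s := hh.symm ▸ hv
        refine mem_clu.2 ⟨(mem_clu.1 hv').1, ?_⟩
        have := conn_closed (P := fun b => b ∈ C ∧ Conn o b (s ∩ E1 ∩ I)) ?_ (mem_clu.1 hv').2
          ⟨hh ▸ mem_clu.2 ⟨ho, SimpleGraph.Reachable.refl _⟩, SimpleGraph.Reachable.refl _⟩
        · exact this.2
        · rintro a b ⟨ha, hca⟩ hab
          refine ⟨hh ▸ mem_clu.2 ⟨((mem_edgesIn h).1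
            (Finset.mem_inter.1 (edgeGraph_adj.1 hab).1).2).2.2,
            (mem_clu.1 (hh.symm ▸ ha : a ∈ clu nb S o s)).2.trans hab.reachable⟩, hca.trans
            (SimpleGraph.Adj.reachable (edgeGraph_adj.2 ⟨hstep a b ha hab, hab.ne⟩))⟩
      · intro hh
        refine Finset.Subset.antisymm (fun v hv => ?_) fun v hv => hsub v (hh.symm ▸ hv)
        have := conn_closed (P := fun b => b ∈ C) ?_ (mem_clu.1 hv).2
          (hh ▸ mem_clu.2 ⟨ho, SimpleGraph.Reachable.refl _⟩)
        · exact this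
        · intro a b ha hab
          rw [← hh] at ha ⊢
          exact mem_clu.2 ⟨((mem_edgesIn h).1 (Finset.mem_inter.1 (edgeGraph_adj.1 hab).1).2).2.2,
            (mem_clu.1 ha).2.trans (SimpleGraph.Adj.reachable (edgeGraph_adj.2
              ⟨hstep a b (hh ▸ ha) hab, hab.ne⟩))⟩
    have hE1 : E1 ⊆ E := Finset.filter_subset _ _
    have hd2 : ∀ e ∈ E1, e ∉ away C ∧ e ≠ s(x, y) := by
      intro e hee
      obtain ⟨-, heI, v, hv, hvC⟩ := Finset.mem_filter.1 hee
      refine ⟨fun hh => (Finset.mem_filter.1 hh).2 v hv hvC, fun hh => ?_⟩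
      subst hh
      exact hyS ((mem_edgesIn h).1 heI).2.2
    have hu : E1 ∪ (E \ E1) = E := Finset.union_sdiff_of_subset hE1
    have hdA : ∀ s ⊆ E1 ∪ (E \ E1), (clu nb S o s = C ↔ clu nb S o (s ∩ E1) = C) := fun s hs =>
      hdep s (hu ▸ hs)
    have hu1 := Pr_union (p := p) (E \ E1) E1 Finset.disjoint_sdiff
      (fun s => clu nb S o s = C) (fun s => s(x, y) ∈ s ∧ Conn y z (s ∩ away C)) hdA
      (fun s hs => by
        rw [hu] at hs
        have e1 : s ∩ (E \ E1) ∩ away C = s ∩ away C := by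
          ext e
          simp only [Finset.mem_inter, Finset.mem_sdiff]
          exact ⟨fun hh => ⟨hh.1.1, hh.2⟩,
            fun hh => ⟨⟨hh.1, hs hh.1, fun hh1 => (hd2 e hh1).1 hh.2⟩, hh.2⟩⟩
        rw [e1]
        simp only [Finset.mem_inter, Finset.mem_sdiff]
        exact ⟨fun hh => ⟨⟨hh.1, he, fun hh1 => (hd2 _ hh1).2 rfl⟩, hh.2⟩,
          fun hh => ⟨hh.1.1, hh.2⟩⟩)
    have hu2 := Pr_union (p := p) (E \ E1) E1 Finset.disjoint_sdiff
      (fun s => clu nb S o s = C) (fun _ => True) hdA (fun _ _ => Iff.rfl)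
    rw [hu] at hu1 hu2
    rw [Pr_true, mul_one] at hu2
    simp only [and_true] at hu2
    rw [hu1, hu2]
    refine mul_le_mul_of_nonneg_left ?_ (Pr_nonneg h0 h1 _)
    have heE : ({s(x, y)} : Finset (Sym2 V)) ⊆ E \ E1 := Finset.singleton_subset_iff.2
      (Finset.mem_sdiff.2 ⟨he, fun hh => (hd2 _ hh).2 rfl⟩)
    have hxa : s(x, y) ∉ away C := fun hh =>
      (Finset.mem_filter.1 hh).2 x (Sym2.mem_mk_left _ _) hxC
    have hsa := Pr_subset_and (p := p) heE (fun s => Conn y z (s ∩ away C)) fun s _ => by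
      rw [show (s \ {s(x, y)}) ∩ away C = s ∩ away C by
        ext e
        simp only [Finset.mem_inter, Finset.mem_sdiff, Finset.mem_singleton]
        exact ⟨fun hh => ⟨hh.1.1, hh.2⟩,
          fun hh => ⟨⟨hh.1, fun hh1 => hxa (hh1 ▸ hh.2)⟩, hh.2⟩⟩]
    simp only [Finset.singleton_subset_iff, Finset.card_singleton, pow_one] at hsa
    rw [hsa]
    refine mul_le_mul_of_nonneg_left ?_ h0
    refine le_trans (Pr_mono h0 h1 fun s _ hh => conn_mono y z Finset.inter_subset_left hh) ?_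
    exact Pr_le_of_subset (Finset.sdiff_subset.trans Finset.sdiff_subset) h0 h1 (conn_mono y z)
  refine (Finset.sum_le_sum key).trans ?_
  rw [← Finset.sum_mul, mul_left_comm p]
  refine mul_le_mul_of_nonneg_right ?_ (mul_nonneg h0 hT)
  have hs := Pr_sum_eq (E := E) (p := p) (S.powerset.filter (x ∈ ·)) (fun _ => (1 : ℝ))
    (fun C s => clu nb S o s = C)
  simp only [one_mul] at hs
  rw [hs]
  refine le_trans (b := Pr E p (fun s => Conn o x (s ∩ (E ∩ I)))) ?_
    ((Pr_restrict Finset.inter_subset_left _).trans_le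
      (Pr_le_of_subset Finset.inter_subset_right h0 h1 (conn_mono o x)))
  · rw [Pr]
    refine Finset.sum_le_sum fun s hs => ?_
    have hs' := Finset.mem_powerset.1 hs
    have hw : 0 ≤ p ^ s.card * (1 - p) ^ (E.card - s.card) :=
      mul_nonneg (pow_nonneg h0 _) (pow_nonneg (sub_nonneg.2 h1) _)
    by_cases hm : clu nb S o s ∈ S.powerset.filter (x ∈ ·)
    · rw [Finset.sum_eq_single (clu nb S o s), if_pos rfl, mul_one, if_pos]
      · rw [← Finset.inter_assoc, Finset.inter_eq_left.2 hs']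
        exact (mem_clu.1 (Finset.mem_filter.1 hm).2).2
      · exact fun C _ hC => if_neg (Ne.symm hC)
      · exact fun hh => absurd hm hh
    · rw [Finset.sum_eq_zero, mul_zero]
      · split_ifs
        exacts [hw, le_rfl]
      · intro C hC
        exact if_neg fun hh => hm (by rw [hh]; exact hC)

end Vale.Agent.P165FreeProd
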