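import Vale.Agent.P165.Unique
import Vale.Agent.P165FreeProd.Perc

/-!
# Percolation on a Cayley graph
-/

namespace Vale.Agent.P165FreeProd

open Vale.Agent.P165 Filter Topology

variable {Γ : Type*} [Group Γ] [DecidableEq Γ] (S : Finset Γ)

/-- The generators and their inverses, without the neutral element. -/
def gens : Finset Γ := (S ∪ S.image (·⁻¹)).erase 1

/-- The neighbours in the Cayley graph. -/
def cnb (x : Γ) : Finset Γ := (gens S).image (x * ·)

theorem lf_cay : LF (SimpleGraph.mulCayley (S : Set Γ)) (cnb S) := by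
  refine ⟨fun {x z} => ?_⟩
  simp only [cnb, gens, Finset.mem_image, Finset.mem_erase, Finset.mem_union,
    SimpleGraph.mulCayley_adj', Finset.mem_coe]
  constructor
  · rintro ⟨g, ⟨hg1, hg | ⟨g', hg', rfl⟩⟩, rfl⟩
    · exact ⟨by simpa using hg1, g, hg, Or.inl rfl⟩
    · exact ⟨by simpa using hg1, g', hg', Or.inr (by simp)⟩
  · rintro ⟨hne, g, hg, h | h⟩
    · exact ⟨g, ⟨by rintro rfl; simp at h; exact hne h, Or.inl hg⟩, h⟩
    · exact ⟨g⁻¹, ⟨by simp; rintro rfl; simp at h; exact hne h, Or.inr ⟨g, hg, rfl⟩⟩,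
        by simp [h]⟩

/-- Left translation. -/
def shift (g : Γ) : SimpleGraph.mulCayley (S : Set Γ) ≃g SimpleGraph.mulCayley (S : Set Γ) where
  toEquiv := Equiv.mulLeft g
  map_rel_iff' := by simp

omit [DecidableEq Γ] in
theorem shift_apply (g x : Γ) : shift S g x = g * x := rfl

omit [DecidableEq Γ] in
theorem quasiTransitive_cay : QuasiTransitive (SimpleGraph.mulCayley (S : Set Γ)) :=
  ⟨{1}, fun v => ⟨1, Finset.mem_singleton_self 1, shift S v, by simp [shift_apply]⟩⟩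

theorem connected_cay (hS : Subgroup.closure (S : Set Γ) = ⊤) :
    (SimpleGraph.mulCayley (S : Set Γ)).Connected := by
  have key : ∀ g : Γ, (SimpleGraph.mulCayley (S : Set Γ)).Reachable 1 g := by
    intro g
    have hg : g ∈ Subgroup.closure (S : Set Γ) := by rw [hS]; trivial
    induction hg using Subgroup.closure_induction with
    | mem s hs =>
      by_cases h : s = 1
      · rw [h]
      · exact SimpleGraph.Adj.reachable
          ((SimpleGraph.mulCayley_adj' _ _ _).2 ⟨Ne.symm h, s, hs, Or.inl (one_mul s)⟩)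
    | one => exact SimpleGraph.Reachable.refl _
    | mul a b _ _ ha hb =>
      refine ha.trans ?_
      have := hb.map (shift S a).toHom
      simpa [shift_apply] using this
    | inv a _ ha =>
      have := ha.map (shift S a⁻¹).toHom
      simpa [shift_apply] using this.symm
  haveI : Nonempty Γ := ⟨1⟩
  exact ⟨fun x y => (key x).symm.trans (key y)⟩

theorem edgesIn_shift (g : Γ) (Λ : Finset Γ) :
    edgesIn (cnb S) (Λ.image (g * ·)) = (edgesIn (cnb S) Λ).image (Sym2.map (g * ·)) := by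
  ext e
  constructor
  · induction e using Sym2.ind with
    | _ a b =>
      intro he
      obtain ⟨hab, ha, hb⟩ := (mem_edgesIn (lf_cay S)).1 he
      obtain ⟨a', ha', rfl⟩ := Finset.mem_image.1 ha
      obtain ⟨b', hb', rfl⟩ := Finset.mem_image.1 hb
      exact Finset.mem_image.2 ⟨s(a', b'), (mem_edgesIn (lf_cay S)).2
        ⟨(SimpleGraph.mulCayley_adj_mul_iff_right).1 hab, ha', hb'⟩, rfl⟩
  · intro he
    obtain ⟨f, hf, rfl⟩ := Finset.mem_image.1 he
    induction f using Sym2.ind with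
    | _ a b =>
      obtain ⟨hab, ha, hb⟩ := (mem_edgesIn (lf_cay S)).1 hf
      exact (mem_edgesIn (lf_cay S)).2 ⟨(SimpleGraph.mulCayley_adj_mul_iff_right).2 hab,
        Finset.mem_image_of_mem _ ha, Finset.mem_image_of_mem _ hb⟩

theorem conn_shift (g : Γ) (s : Finset (Sym2 Γ)) (x y : Γ) :
    Conn (g * x) (g * y) (s.image (Sym2.map (g * ·))) ↔ Conn x y s := by
  have hinj : Function.Injective (Sym2.map (g * ·)) := Sym2.map.injective (mul_right_injective g)
  let ψ : edgeGraph s ≃g edgeGraph (s.image (Sym2.map (g * ·))) :=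
    { toEquiv := Equiv.mulLeft g
      map_rel_iff' := fun {a b} => by
        simp only [edgeGraph_adj, Equiv.coe_mulLeft, ne_eq, mul_right_inj]
        rw [show s(g * a, g * b) = Sym2.map (g * ·) s(a, b) from rfl,
          hinj.mem_finset_image] }
  exact ψ.reachable_iff (u := x) (v := y)

theorem tauS_shift (g : Γ) (Λ : Finset Γ) (p : ℝ) (x y : Γ) :
    tauS (cnb S) (Λ.image (g * ·)) p (g * x) (g * y) = tauS (cnb S) Λ p x y := by
  rw [tauS, edgesIn_shift, Pr_image _ (Sym2.map.injective (mul_right_injective g))]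
  exact Pr_congr fun s _ => conn_shift g s x y

theorem tauS_symm (Λ : Finset Γ) (p : ℝ) (x y : Γ) :
    tauS (cnb S) Λ p x y = tauS (cnb S) Λ p y x :=
  Pr_congr fun _ _ => ⟨SimpleGraph.Reachable.symm, SimpleGraph.Reachable.symm⟩

/-- The two-point function. -/
noncomputable def tau (p : ℝ) (x : Γ) : ℝ := ⨆ Λ : Finset Γ, tauS (cnb S) Λ p 1 x

variable {p : ℝ}

theorem bdd_tau (h0 : 0 ≤ p) (h1 : p ≤ 1) (x : Γ) :
    BddAbove (Set.range fun Λ : Finset Γ => tauS (cnb S) Λ p 1 x) :=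
  ⟨1, by rintro _ ⟨Λ, rfl⟩; exact tauS_le_one h0 h1 Λ 1 x⟩

theorem tauS_le_tau (h0 : 0 ≤ p) (h1 : p ≤ 1) (Λ : Finset Γ) (x : Γ) :
    tauS (cnb S) Λ p 1 x ≤ tau S p x := le_ciSup (bdd_tau S h0 h1 x) Λ

theorem tauS_le_tau' (h0 : 0 ≤ p) (h1 : p ≤ 1) (Λ : Finset Γ) (x y : Γ) :
    tauS (cnb S) Λ p x y ≤ tau S p (x⁻¹ * y) := by
  rw [← tauS_shift S x⁻¹, inv_mul_cancel]
  exact tauS_le_tau S h0 h1 _ _

theorem tau_nonneg (h0 : 0 ≤ p) (h1 : p ≤ 1) (x : Γ) : 0 ≤ tau S p x :=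
  (tauS_nonneg h0 h1 ∅ 1 x).trans (tauS_le_tau S h0 h1 ∅ x)

theorem tendsto_tau (h0 : 0 ≤ p) (h1 : p ≤ 1) (x : Γ) :
    Tendsto (fun Λ : Finset Γ => tauS (cnb S) Λ p 1 x) atTop (𝓝 (tau S p x)) :=
  tendsto_atTop_ciSup (fun _ _ h => tauS_mono (lf_cay S) h0 h1 h 1 x) (bdd_tau S h0 h1 x)

theorem tau_mul (h0 : 0 ≤ p) (h1 : p ≤ 1) (x y : Γ) :
    tau S p x * tau S p y ≤ tau S p (x * y) := by
  refine le_of_tendsto ((tendsto_tau S h0 h1 x).mul (tendsto_tau S h0 h1 y))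
    (Eventually.of_forall fun Λ => ?_)
  rw [← tauS_shift S x Λ p 1 y, mul_one]
  refine le_trans ?_ (tauS_le_tau S h0 h1 (Λ ∪ Λ.image (x * ·)) (x * y))
  refine le_trans (mul_le_mul
    (tauS_mono (Λ' := Λ ∪ Λ.image (x * ·)) (lf_cay S) h0 h1 Finset.subset_union_left 1 x)
    (tauS_mono (Λ' := Λ ∪ Λ.image (x * ·)) (lf_cay S) h0 h1 Finset.subset_union_right x (x * y))
    (tauS_nonneg h0 h1 _ _ _) (tauS_nonneg h0 h1 _ _ _)) ?_
  exact (harris h0 h1 _ (conn_mono 1 x) (conn_mono x (x * y))).trans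
    (Pr_mono h0 h1 fun s _ hs => hs.1.trans hs.2)

theorem tau_one (h0 : 0 ≤ p) (h1 : p ≤ 1) : tau S p 1 = 1 := by
  refine le_antisymm (ciSup_le fun Λ => tauS_le_one h0 h1 Λ 1 1) ?_
  refine le_trans (le_of_eq ?_) (tauS_le_tau S h0 h1 ∅ 1)
  rw [tauS, Pr_congr (A := Conn (1 : Γ) 1) (B := fun _ => True) fun s _ =>
    ⟨fun _ => trivial, fun _ => SimpleGraph.Reachable.refl _⟩, Pr_true]

theorem tau_inv_le (h0 : 0 ≤ p) (h1 : p ≤ 1) (x : Γ) : tau S p x ≤ tau S p x⁻¹ := by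
  refine ciSup_le fun Λ => ?_
  rw [tauS_symm]
  simpa using tauS_le_tau' S h0 h1 Λ x 1

theorem exists_pow_le_tau (hS : Subgroup.closure (S : Set Γ) = ⊤) (x : Γ) :
    ∃ k : ℕ, ∀ p : ℝ, 0 ≤ p → p ≤ 1 → p ^ k ≤ tau S p x := by
  have hx : x ∈ Subgroup.closure (S : Set Γ) := by rw [hS]; trivial
  induction hx using Subgroup.closure_induction with
  | mem s hs =>
    by_cases h : s = 1
    · exact ⟨0, fun p h0 h1 => by rw [h, tau_one S h0 h1, pow_zero]⟩
    refine ⟨1, fun p h0 h1 => le_trans ?_ (tauS_le_tau S h0 h1 {1, s} s)⟩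
    rw [pow_one, tauS]
    have hadj : (SimpleGraph.mulCayley (S : Set Γ)).Adj 1 s :=
      (SimpleGraph.mulCayley_adj' _ _ _).2 ⟨Ne.symm h, s, hs, Or.inl (one_mul s)⟩
    have hm : s(1, s) ∈ edgesIn (cnb S) {1, s} :=
      (mem_edgesIn (lf_cay S)).2 ⟨hadj, by simp, by simp⟩
    refine le_trans (le_of_eq ?_) (Pr_le_of_subset (Finset.singleton_subset_iff.2 hm) h0 h1
      (conn_mono 1 s))
    rw [Pr_congr (B := fun t => ({s(1, s)} : Finset (Sym2 Γ)) ⊆ t) fun t ht => ?_, Pr_subset_eq,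
      Finset.card_singleton, pow_one]
    constructor
    · rintro ⟨q⟩
      cases q with
      | nil => exact absurd rfl h
      | cons hu _ =>
        obtain ⟨hu1, -⟩ := edgeGraph_adj.1 hu
        have := Finset.mem_singleton.1 (ht hu1)
        exact Finset.singleton_subset_iff.2 (this ▸ hu1)
    · intro ht'
      exact SimpleGraph.Adj.reachable
        (edgeGraph_adj.2 ⟨Finset.singleton_subset_iff.1 ht', Ne.symm h⟩)
  | one => exact ⟨0, fun p h0 h1 => by rw [tau_one S h0 h1, pow_zero]⟩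
  | mul a b _ _ ha hb =>
    obtain ⟨i, hi⟩ := ha
    obtain ⟨j, hj⟩ := hb
    exact ⟨i + j, fun p h0 h1 => by
      rw [pow_add]
      exact (mul_le_mul (hi p h0 h1) (hj p h0 h1) (pow_nonneg h0 _)
        (tau_nonneg S h0 h1 _)).trans (tau_mul S h0 h1 a b)⟩
  | inv a _ ha =>
    obtain ⟨i, hi⟩ := ha
    exact ⟨i, fun p h0 h1 => (hi p h0 h1).trans (tau_inv_le S h0 h1 a)⟩

theorem exists_uniform_pow (hS : Subgroup.closure (S : Set Γ) = ⊤) (A : Finset Γ) :
    ∃ k : ℕ, ∀ p : ℝ, 0 ≤ p → p ≤ 1 → ∀ x ∈ A, p ^ k ≤ tau S p x := by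
  choose k hk using exists_pow_le_tau S hS
  exact ⟨A.sup k, fun p h0 h1 x hx =>
    (pow_le_pow_of_le_one h0 h1 (Finset.le_sup hx)).trans (hk x p h0 h1)⟩

/-- The susceptibility is finite. -/
def Subcrit (p : ℝ) : Prop := ∃ C : ℝ, ∀ F : Finset Γ, ∑ x ∈ F, tau S p x ≤ C

/-- A code carries weight at most one. -/
theorem code_le_one (h0 : 0 ≤ p) (h1 : p ≤ 1) (hb : Subcrit S p) (E : Finset Γ)
    (hE : ∀ l l' : List Γ, (∀ x ∈ l, x ∈ E) → (∀ x ∈ l', x ∈ E) →
      l.length = l'.length → l.prod = l'.prod → l = l') : ∑ x ∈ E, tau S p x ≤ 1 := by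
  obtain ⟨C, hC⟩ := hb
  by_contra hgt
  obtain ⟨m, hm⟩ := pow_unbounded_of_one_lt C (not_le.1 hgt)
  have hprod : ∀ l : List Γ, (l.map (tau S p)).prod ≤ tau S p l.prod := by
    intro l
    induction l with
    | nil => simp [tau_one S h0 h1]
    | cons a l ih =>
      rw [List.map_cons, List.prod_cons, List.prod_cons]
      exact (mul_le_mul_of_nonneg_left ih (tau_nonneg S h0 h1 a)).trans (tau_mul S h0 h1 a _)
  rw [Finset.sum_pow'] at hm
  set π : (Fin m → Γ) → Γ := fun f => (List.ofFn f).prod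
  have hinj : Set.InjOn π (Fintype.piFinset fun _ : Fin m => E) := by
    intro f hf g hg hfg
    refine List.ofFn_injective (hE _ _ ?_ ?_ (by simp) hfg)
    · intro x hx
      obtain ⟨i, rfl⟩ := List.mem_ofFn.1 hx
      exact Fintype.mem_piFinset.1 hf i
    · intro x hx
      obtain ⟨i, rfl⟩ := List.mem_ofFn.1 hx
      exact Fintype.mem_piFinset.1 hg i
  refine absurd (hC ((Fintype.piFinset fun _ : Fin m => E).image π)) (not_le.2 (hm.trans_le ?_))
  rw [Finset.sum_image hinj]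
  refine Finset.sum_le_sum fun f _ => le_trans (le_of_eq ?_) (hprod _)
  rw [List.map_ofFn, List.prod_ofFn]
  rfl

/-- The two-point function among sets of bounded size. -/
noncomputable def aN (p : ℝ) (N : ℕ) (z : Γ) : ℝ :=
  ⨆ Λ : {Λ : Finset Γ // Λ.card ≤ N}, tauS (cnb S) Λ.1 p 1 z

theorem tauS_le_aN (h0 : 0 ≤ p) (h1 : p ≤ 1) {N : ℕ} (Λ : Finset Γ) (hΛ : Λ.card ≤ N) (z : Γ) :
    tauS (cnb S) Λ p 1 z ≤ aN S p N z :=
  le_ciSup (f := fun Λ : {Λ : Finset Γ // Λ.card ≤ N} => tauS (cnb S) Λ.1 p 1 z)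
    ⟨1, by rintro _ ⟨Λ, rfl⟩; exact tauS_le_one h0 h1 _ _ _⟩ ⟨Λ, hΛ⟩

theorem aN_nonneg (h0 : 0 ≤ p) (h1 : p ≤ 1) (N : ℕ) (z : Γ) : 0 ≤ aN S p N z :=
  (tauS_nonneg h0 h1 ∅ 1 z).trans (tauS_le_aN S h0 h1 ∅ (by simp) z)

theorem aN_le_one (h0 : 0 ≤ p) (h1 : p ≤ 1) (N : ℕ) (z : Γ) : aN S p N z ≤ 1 :=
  haveI : Nonempty {Λ : Finset Γ // Λ.card ≤ N} := ⟨⟨∅, by simp⟩⟩
  ciSup_le fun _ => tauS_le_one h0 h1 _ _ _

theorem mem_reach_of_walk {V : Type*} [DecidableEq V] {G : SimpleGraph V} {nb : V → Finset V}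
    (h : LF G nb) {a b : V} (w : G.Walk a b) : b ∈ reach nb w.length a := by
  induction w using SimpleGraph.Walk.concatRec with
  | Hnil => simp [reach]
  | @Hconcat a c b w hcb ih =>
    rw [SimpleGraph.Walk.length_concat]
    exact Finset.mem_union_right _ (Finset.mem_biUnion.2 ⟨c, ih, h.mem.2 hcb⟩)

theorem reach_mono {V : Type*} [DecidableEq V] (nb : V → Finset V) (a : V) :
    Monotone fun L => reach nb L a :=
  monotone_nat_of_le_succ fun _ => Finset.subset_union_left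

theorem aN_eq_zero (h0 : 0 ≤ p) (h1 : p ≤ 1) {N : ℕ} {z : Γ} (hz : z ∉ reach (cnb S) N 1) :
    aN S p N z = 0 := by
  refine le_antisymm ?_ (aN_nonneg S h0 h1 N z)
  haveI : Nonempty {Λ : Finset Γ // Λ.card ≤ N} := ⟨⟨∅, by simp⟩⟩
  refine ciSup_le fun Λ => le_of_eq ?_
  rw [tauS, Pr_congr (B := fun _ => False) fun s hs => ⟨fun hc => hz ?_, False.elim⟩, Pr_false]
  obtain ⟨q, hq⟩ := hc.exists_isPath
  have hle : q.length ≤ N := by
    cases q with
    | nil => simp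
    | cons hu q' =>
      have h1Λ : (1 : Γ) ∈ Λ.1 := ((mem_edgesIn (lf_cay S)).1 (hs (edgeGraph_adj.1 hu).1)).2.1
      have h2 : (SimpleGraph.Walk.cons hu q').support.toFinset ⊆ Λ.1 := fun v hv =>
        edgeGraph_mem (lf_cay S) hs _ h1Λ v (List.mem_toFinset.1 hv)
      have h3 := (Finset.card_le_card h2).trans Λ.2
      rw [List.toFinset_card_of_nodup hq.support_nodup, SimpleGraph.Walk.length_support] at h3
      omega
  refine reach_mono (cnb S) 1 hle ?_
  simpa using mem_reach_of_walk (lf_cay S) (q.mapLe (edgeGraph_le (lf_cay S) hs))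

open Classical in
/-- First exit from a finite set, for the translation invariant quantity. -/
theorem aN_exit (h0 : 0 ≤ p) (h1 : p ≤ 1) (N : ℕ) {B : Finset Γ} (hB : (1 : Γ) ∈ B) (z : Γ) :
    aN S p N z ≤ (if z ∈ B then 1 else 0) + p * ∑ x ∈ B, tauS (cnb S) B p 1 x *
      ∑ s ∈ (gens S).filter (fun s => x * s ∉ B), aN S p N ((x * s)⁻¹ * z) := by
  haveI : Nonempty {Λ : Finset Γ // Λ.card ≤ N} := ⟨⟨∅, by simp⟩⟩
  have hsum : 0 ≤ p * ∑ x ∈ B, tauS (cnb S) B p 1 x *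
      ∑ s ∈ (gens S).filter (fun s => x * s ∉ B), aN S p N ((x * s)⁻¹ * z) :=
    mul_nonneg h0 (Finset.sum_nonneg fun x _ => mul_nonneg (tauS_nonneg h0 h1 _ _ _)
      (Finset.sum_nonneg fun s _ => aN_nonneg S h0 h1 _ _))
  by_cases hz : z ∈ B
  · rw [if_pos hz]
    linarith [aN_le_one S h0 h1 N z]
  rw [if_neg hz, zero_add]
  refine ciSup_le fun Λ => (exit_le (lf_cay S) h0 h1 hB hz).trans ?_
  refine mul_le_mul_of_nonneg_left (Finset.sum_le_sum fun x _ => ?_) h0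
  refine mul_le_mul_of_nonneg_left ?_ (tauS_nonneg h0 h1 _ _ _)
  rw [cnb, Finset.filter_image, Finset.sum_image fun a _ b _ hab => mul_left_cancel hab]
  refine Finset.sum_le_sum fun s _ => ?_
  rw [← tauS_shift S (x * s)⁻¹, inv_mul_cancel]
  exact tauS_le_aN S h0 h1 _ (Finset.card_image_le.trans Λ.2) _

/-- A finite set with exit sum below one forces finite susceptibility. -/
theorem subcrit_of_phi (h0 : 0 ≤ p) (h1 : p ≤ 1) {B : Finset Γ} (hB : (1 : Γ) ∈ B)
    (hphi : phi (cnb S) B p 1 < 1) : Subcrit S p := by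
  classical
  set φ := phi (cnb S) B p 1
  refine ⟨(B.card : ℝ) / (1 - φ), fun F => ?_⟩
  refine le_of_tendsto (tendsto_finsetSum F fun x _ => tendsto_tau S h0 h1 x)
    (Eventually.of_forall fun Λ => ?_)
  set N := Λ.card
  set U := reach (cnb S) N 1 ∪ F
  set M := ∑ z ∈ U, aN S p N z
  have hout : ∀ g : Γ, ∑ z ∈ U, aN S p N (g⁻¹ * z) ≤ M := by
    intro g
    rw [← Finset.sum_image (f := aN S p N) (g := (g⁻¹ * ·))
      fun a _ b _ hab => mul_left_cancel hab]
    refine (Finset.sum_le_sum_of_subset_of_nonneg (t := U.image (g⁻¹ * ·) ∪ U)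
      Finset.subset_union_left fun v _ _ => aN_nonneg S h0 h1 N v).trans (le_of_eq ?_)
    exact (Finset.sum_subset Finset.subset_union_right fun v _ hv =>
      aN_eq_zero S h0 h1 fun hh => hv (Finset.mem_union_left _ hh)).symm
  have hM : M ≤ (B.card : ℝ) + φ * M := by
    refine (Finset.sum_le_sum fun z _ => aN_exit S h0 h1 N hB z).trans ?_
    rw [Finset.sum_add_distrib]
    refine add_le_add ?_ ?_
    · rw [Finset.sum_boole]
      exact Nat.cast_le.2 (Finset.card_le_card fun v hv => (Finset.mem_filter.1 hv).2)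
    · rw [← Finset.mul_sum]
      simp only [φ, phi, mul_assoc]
      refine mul_le_mul_of_nonneg_left ?_ h0
      rw [Finset.sum_comm, Finset.sum_mul]
      refine Finset.sum_le_sum fun x _ => ?_
      rw [← Finset.mul_sum, mul_assoc]
      refine mul_le_mul_of_nonneg_left ?_ (tauS_nonneg h0 h1 _ _ _)
      rw [Finset.sum_comm, cnb, Finset.filter_image,
        Finset.card_image_of_injective _ (mul_right_injective x), ← nsmul_eq_mul,
        ← Finset.sum_const]
      exact Finset.sum_le_sum fun s _ => hout (x * s)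
  rw [le_div_iff₀ (by linarith)]
  refine le_trans (mul_le_mul_of_nonneg_right ((Finset.sum_le_sum fun x _ =>
    tauS_le_aN S h0 h1 Λ le_rfl x).trans (Finset.sum_le_sum_of_subset_of_nonneg
    (t := U) Finset.subset_union_right fun v _ _ => aN_nonneg S h0 h1 N v)) (by linarith)) ?_
  linarith

theorem subcrit_mono {q : ℝ} (h0 : 0 ≤ p) (hpq : p ≤ q) (hq : q ≤ 1) (hb : Subcrit S q) :
    Subcrit S p := by
  obtain ⟨C, hC⟩ := hb
  refine ⟨C, fun F => le_trans (Finset.sum_le_sum fun x _ => ciSup_le fun Λ => ?_) (hC F)⟩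
  exact (Pr_mono_param (conn_mono 1 x) h0 hpq hq).trans
    (tauS_le_tau S (h0.trans hpq) hq Λ x)

end Vale.Agent.P165FreeProd
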