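import Mathlib

/-!
# Labels for a family of words, avoiding most later continuations
-/

namespace Vale.Agent.P165FreeProd

variable {ι β : Type*} [DecidableEq β]

/-- The number of words of the family beginning with `l`. -/
def cnt (U : Finset ι) (y : ι → List β) (l : List β) : ℕ := (U.filter fun x => l <+: y x).card

theorem cnt_anti (U : Finset ι) (y : ι → List β) {l m : List β} (h : l <+: m) :
    cnt U y m ≤ cnt U y l :=
  Finset.card_le_card fun x hx => by
    simp only [Finset.mem_filter] at hx ⊢
    exact ⟨hx.1, h.trans hx.2⟩

omit [DecidableEq β] in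
theorem prefix_same_length {l m y : List β} (hl : l <+: y) (hm : m <+: y)
    (h : l.length = m.length) : l = m :=
  (List.prefix_of_prefix_length_le hl hm h.le).eq_of_length h

theorem cnt_children (U : Finset ι) (y : ι → List β) (u : List β) {a b : β} (hab : a ≠ b) :
    cnt U y (u ++ [a]) + cnt U y (u ++ [b]) ≤ cnt U y u := by
  classical
  rw [cnt, cnt, ← Finset.card_union_of_disjoint]
  · refine Finset.card_le_card fun x hx => ?_
    simp only [Finset.mem_union, Finset.mem_filter] at hx ⊢
    rcases hx with ⟨h, h'⟩ | ⟨h, h'⟩ <;> exact ⟨h, (List.prefix_append _ _).trans h'⟩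
  · rw [Finset.disjoint_left]
    intro x hx hx'
    simp only [Finset.mem_filter] at hx hx'
    have := prefix_same_length hx.2 hx'.2 (by simp)
    exact hab (by simpa using this)

/-- The lighter of two children. -/
def light (U : Finset ι) (y : ι → List β) (a b : β) (u : List β) : β :=
  if cnt U y (u ++ [a]) ≤ cnt U y (u ++ [b]) then a else b

theorem two_cnt_light (U : Finset ι) (y : ι → List β) {a b : β} (hab : a ≠ b) (u : List β) :
    2 * cnt U y (u ++ [light U y a b u]) ≤ cnt U y u := by
  have := cnt_children U y u hab
  unfold light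
  split_ifs <;> omega

/-- Along one word there are at most logarithmically many light children. -/
theorem card_light_le (U : Finset ι) (y : ι → List β) {a b : β} (hab : a ≠ b)
    (P : Finset (List β)) {x : ι} (hx : x ∈ U) :
    (P.filter fun u => u ++ [light U y a b u] <+: y x).card ≤ Nat.log 2 U.card := by
  classical
  set Q := P.filter fun u => u ++ [light U y a b u] <+: y x
  have hQ : ∀ u ∈ Q, u ++ [light U y a b u] <+: y x := fun u hu => (Finset.mem_filter.1 hu).2
  have key : ∀ l, 2 ^ (Q.filter fun u => u.length < l).card * cnt U y ((y x).take l) ≤ U.card := by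
    intro l
    induction l with
    | zero =>
      rw [Finset.filter_false_of_mem (fun u _ => Nat.not_lt_zero _)]
      simp only [Finset.card_empty, pow_zero, one_mul, cnt]
      exact Finset.card_filter_le _ _
    | succ l ih =>
      by_cases hu : ∃ u ∈ Q, u.length = l
      · obtain ⟨u, hu, hlen⟩ := hu
        have hpre : u <+: y x := (List.prefix_append _ _).trans (hQ u hu)
        have hsub : Q.filter (fun v => v.length < l + 1) ⊆
            insert u (Q.filter fun v => v.length < l) := by
          intro v hv
          simp only [Finset.mem_filter, Finset.mem_insert] at hv ⊢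
          rcases Nat.lt_succ_iff_lt_or_eq.1 hv.2 with h | h
          · exact Or.inr ⟨hv.1, h⟩
          · exact Or.inl (prefix_same_length ((List.prefix_append _ _).trans (hQ v hv.1)) hpre
              (h.trans hlen.symm))
        have hcard := (Finset.card_le_card hsub).trans (Finset.card_insert_le _ _)
        have e1 : (y x).take l = u := by
          rw [← hlen]; exact (List.prefix_iff_eq_take.1 hpre).symm
        have e2 : (y x).take (l + 1) = u ++ [light U y a b u] := by
          have := List.prefix_iff_eq_take.1 (hQ u hu)
          rw [List.length_append, List.length_singleton, hlen] at this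
          exact this.symm
        rw [e1] at ih
        rw [e2]
        calc 2 ^ (Q.filter fun v => v.length < l + 1).card * cnt U y (u ++ [light U y a b u])
            ≤ 2 ^ ((Q.filter fun v => v.length < l).card + 1) *
              cnt U y (u ++ [light U y a b u]) :=
              Nat.mul_le_mul_right _ (Nat.pow_le_pow_right (by norm_num) hcard)
          _ = 2 ^ (Q.filter fun v => v.length < l).card *
              (2 * cnt U y (u ++ [light U y a b u])) := by ring
          _ ≤ _ := (Nat.mul_le_mul_left _ (two_cnt_light U y hab u)).trans ih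
      · have : Q.filter (fun v => v.length < l + 1) = Q.filter fun v => v.length < l :=
          Finset.filter_congr fun v hv => ⟨fun h => lt_of_le_of_ne (Nat.lt_succ_iff.1 h)
            fun he => hu ⟨v, hv, he⟩, fun h => Nat.lt_succ_of_lt h⟩
        rw [this]
        exact (Nat.mul_le_mul_left _ (cnt_anti U y
          (List.take_prefix_take_left (Nat.le_succ l)))).trans ih
  have h := key (y x).length
  have hfull : Q.filter (fun u => u.length < (y x).length) = Q :=
    Finset.filter_true_of_mem fun u hu => by
      have := (hQ u hu).length_le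
      simp at this
      omega
  rw [hfull, List.take_length] at h
  have h1 : 1 ≤ cnt U y (y x) := Finset.card_pos.2 ⟨x, by simp [hx]⟩
  exact Nat.le_log_of_pow_le one_lt_two ((Nat.le_mul_of_pos_right _ h1).trans h)

open Classical in
/-- Labels of length `k + 1` over two letters such that little weight continues a labelled word. -/
theorem exists_labels (U : Finset ι) (y : ι → List β) (wt : ι → ℝ) (hwt : ∀ x, 0 ≤ wt x)
    {a b : β} (hab : a ≠ b) (k : ℕ) (P : Finset (List β)) :
    ∃ E : List β → (Fin (k + 1) → Bool),
      ∑ x ∈ U, (if ∃ u ∈ P, u ++ List.ofFn (fun j => if E u j then b else a) <+: y x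
        then wt x else 0) ≤ (Nat.log 2 U.card : ℝ) / 2 ^ k * ∑ x ∈ U, wt x := by
  set L : (Fin (k + 1) → Bool) → List β := fun w => List.ofFn fun j => if w j then b else a
  set g : List β → (Fin k → Bool) → Fin (k + 1) → Bool := fun u w =>
    Fin.cons (decide (light U y a b u = b)) w
  have hlight : ∀ u, (if decide (light U y a b u = b) = true then b else a) = light U y a b u := by
    intro u
    simp only [decide_eq_true_eq]
    split_ifs with h
    · exact h.symm
    · unfold light at h ⊢
      split_ifs at h ⊢ <;> simp_all
  have hL : ∀ u w, L (g u w) = light U y a b u :: List.ofFn (fun j => if w j then b else a) := by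
    intro u w
    simp only [L, g, List.ofFn_succ, Fin.cons_zero, Fin.cons_succ, hlight]
  set m : List β → (Fin k → Bool) → ℝ := fun u w =>
    ∑ x ∈ U, if u ++ L (g u w) <+: y x then wt x else 0
  have hsum : ∀ u, ∑ w, m u w ≤
      ∑ x ∈ U, if u ++ [light U y a b u] <+: y x then wt x else 0 := by
    intro u
    simp only [m]
    rw [Finset.sum_comm]
    refine Finset.sum_le_sum fun x _ => ?_
    by_cases hw : ∃ w, u ++ L (g u w) <+: y x
    · obtain ⟨w, hw⟩ := hw
      rw [Finset.sum_eq_single w, if_pos hw, if_pos]
      · refine List.IsPrefix.trans ?_ hw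
        rw [hL]
        exact ⟨List.ofFn fun j => if w j then b else a, by simp⟩
      · intro w' _ hne
        refine if_neg fun h' => hne ?_
        have h3 := prefix_same_length h' hw (by simp [L])
        rw [hL, hL, List.append_cancel_left_eq, List.cons.injEq, List.ofFn_inj] at h3
        funext j
        have h4 := congrFun h3.2 j
        cases h5 : w j <;> cases h6 : w' j <;> simp_all
      · simp
    · simp only [not_exists] at hw
      rw [Finset.sum_eq_zero fun w _ => if_neg (hw w)]
      split_ifs <;> simp [hwt]
  have hmin : ∀ u, ∃ w, (2 : ℝ) ^ k * m u w ≤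
      ∑ x ∈ U, if u ++ [light U y a b u] <+: y x then wt x else 0 := by
    intro u
    obtain ⟨w, -, hw⟩ := Finset.exists_min_image (Finset.univ : Finset (Fin k → Bool)) (m u)
      Finset.univ_nonempty
    refine ⟨w, le_trans ?_ (hsum u)⟩
    have := Finset.card_nsmul_le_sum Finset.univ (m u) (m u w) hw
    simpa using this
  choose w hw using hmin
  refine ⟨fun u => g u (w u), ?_⟩
  have h2 : (0 : ℝ) < 2 ^ k := by positivity
  rw [div_mul_eq_mul_div, le_div_iff₀ h2, mul_comm]
  calc (2 : ℝ) ^ k * ∑ x ∈ U, (if ∃ u ∈ P, u ++ L (g u (w u)) <+: y x then wt x else 0)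
      ≤ 2 ^ k * ∑ x ∈ U, ∑ u ∈ P, (if u ++ L (g u (w u)) <+: y x then wt x else 0) := by
        refine mul_le_mul_of_nonneg_left (Finset.sum_le_sum fun x _ => ?_) h2.le
        have h0 : ∀ u ∈ P, 0 ≤ (if u ++ L (g u (w u)) <+: y x then wt x else 0) :=
          fun u _ => by split_ifs <;> simp [hwt]
        split_ifs with h
        · obtain ⟨u, hu, hux⟩ := h
          exact (le_of_eq (by rw [if_pos hux])).trans (Finset.single_le_sum h0 hu)
        · exact Finset.sum_nonneg h0
    _ = ∑ u ∈ P, 2 ^ k * m u (w u) := by rw [Finset.sum_comm, Finset.mul_sum]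
    _ ≤ ∑ u ∈ P, ∑ x ∈ U, if u ++ [light U y a b u] <+: y x then wt x else 0 :=
        Finset.sum_le_sum fun u _ => hw u
    _ = ∑ x ∈ U, ((P.filter fun u => u ++ [light U y a b u] <+: y x).card : ℝ) * wt x := by
        rw [Finset.sum_comm]
        exact Finset.sum_congr rfl fun x _ => by
          rw [← Finset.sum_filter, Finset.sum_const, nsmul_eq_mul]
    _ ≤ ∑ x ∈ U, (Nat.log 2 U.card : ℝ) * wt x := Finset.sum_le_sum fun x hx =>
        mul_le_mul_of_nonneg_right (Nat.cast_le.2 (card_light_le U y hab P hx)) (hwt x)
    _ = _ := by rw [← Finset.mul_sum]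

end Vale.Agent.P165FreeProd
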