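import Vale.Agent.P165FreeProd.Word
import Vale.Agent.P165FreeProd.Trie

/-!
# In a product of free groups every finite set has little weight
-/

namespace Vale.Agent.P165FreeProd

open FreeGroup

variable {d : ℕ} (n : Fin d → ℕ)

/-- A product of free groups of rank at least two. -/
abbrev Prd : Type := ∀ i : Fin d, FreeGroup (Fin (n i + 2))

variable {n}

/-- One of the first two generators. -/
def ltr (i : Fin d) (b : Bool) : Fin (n i + 2) × Bool := (if b then 1 else 0, true)

/-- The element with one positive letter in each coordinate. -/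
def gv (v : Fin d → Bool) : Prd n := fun i => of (if v i then 1 else 0)

theorem toWord_gv (v : Fin d → Bool) (i : Fin d) :
    (gv (n := n) v i).toWord = [ltr i (v i)] := toWord_of _

theorem ltr_ne (i : Fin d) : (ltr i false : Fin (n i + 2) × Bool) ≠ ltr i true := by
  intro h
  have := congrArg (fun p => p.1.val) h
  simp [ltr] at this

theorem pos_singleton (i : Fin d) (b : Bool) : Pos [(ltr i b : Fin (n i + 2) × Bool)] :=
  ⟨⟨_, [], rfl⟩, ⟨_, [], rfl⟩⟩

/-- No word of one element begins the word of the other, in some coordinate. -/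
def Incomp (x y : Prd n) : Prop :=
  ∃ i, ¬ (x i).toWord <+: (y i).toWord ∧ ¬ (y i).toWord <+: (x i).toWord

/-- What is used of the weight. -/
structure Weight (w : Prd n → ℝ) (c : ℝ) : Prop where
  nonneg : ∀ x, 0 ≤ w x
  mul_le : ∀ x y, w x * w y ≤ w (x * y)
  gen : ∀ v, c ≤ w (gv v)
  code : ∀ E : Finset (Prd n), (∀ x ∈ E, ∀ i, Pos (x i).toWord) →
    (∀ x ∈ E, ∀ y ∈ E, x ≠ y → Incomp x y) → ∑ x ∈ E, w x ≤ 1

theorem Weight.mul_prod {w : Prd n → ℝ} {c : ℝ} (hw : Weight w c) (hc : 0 ≤ c) :
    ∀ (l : List (Fin d → Bool)) (x : Prd n), w x * c ^ l.length ≤ w (x * (l.map gv).prod)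
  | [], x => by simp
  | v :: l, x => by
    have h := hw.mul_prod hc l (x * gv v)
    rw [mul_assoc] at h
    rw [List.map_cons, List.prod_cons, List.length_cons, pow_succ']
    refine le_trans ?_ h
    rw [← mul_assoc]
    exact mul_le_mul_of_nonneg_right ((mul_le_mul_of_nonneg_left (hw.gen v) (hw.nonneg x)).trans
      (hw.mul_le x _)) (pow_nonneg hc _)

theorem toWord_list (l : List (Fin d → Bool)) (i : Fin d) :
    ((l.map gv).prod i : FreeGroup (Fin (n i + 2))).toWord = l.map fun v => ltr i (v i) := by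
  have e : ((l.map gv).prod i : FreeGroup (Fin (n i + 2))) =
      (l.map fun v => (gv v : Prd n) i).prod := by
    have := map_list_prod (Pi.evalMonoidHom (fun i => FreeGroup (Fin (n i + 2))) i) (l.map gv)
    simpa [List.map_map, Function.comp_def] using this
  rw [e, toWord_prod_pos _ ?_, List.map_map]
  · simp only [Function.comp_def, toWord_gv]
    clear e
    induction l with
    | nil => rfl
    | cons v l ih => simp [ih]
  · intro x hx
    obtain ⟨v, -, rfl⟩ := List.mem_map.1 hx
    rw [toWord_gv]
    exact pos_singleton i _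

open Classical in
/-- The letter padded at the front. -/
noncomputable def front (x : Prd n) : Fin d → Bool := fun i =>
  decide ((x i).toWord.head? = some ((0 : Fin (n i + 2)), false))

open Classical in
/-- The letter padded at the back. -/
noncomputable def back (x : Prd n) : Fin d → Bool := fun i =>
  decide ((x i).toWord.getLast? = some ((0 : Fin (n i + 2)), false))

theorem toWord_pad (x : Prd n) (i : Fin d) :
    (((gv (front x) : Prd n) * (x * gv (back x)) : Prd n) i).toWord =
      ltr i (front x i) :: ((x i).toWord ++ [ltr i (back x i)]) := by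
  have e1 : ((x * gv (back x) : Prd n) i).toWord = (x i).toWord ++ [ltr i (back x i)] := by
    rw [Pi.mul_apply, toWord_mul_eq, toWord_gv]
    intro a ha b hb h1
    rw [toWord_gv] at hb
    simp at hb
    subst hb
    obtain ⟨a1, a2⟩ := a
    cases a2
    · simp only [ltr, back] at h1 ⊢
      by_cases h : (x i).toWord.getLast? = some ((0 : Fin (n i + 2)), false)
      · rw [h] at ha
        simp at ha
        subst ha
        simp [h] at h1
      · simp [h] at h1
        exact absurd (h1 ▸ ha) h
    · rfl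
  rw [Pi.mul_apply, toWord_mul_eq, toWord_gv, e1]
  · rfl
  intro a ha b hb h1
  rw [toWord_gv] at ha
  simp at ha
  subst ha
  rw [e1] at hb
  obtain ⟨b1, b2⟩ := b
  cases b2
  · exfalso
    by_cases hnil : (x i).toWord = []
    · simp [hnil, ltr] at hb
    · rw [List.head?_append_of_ne_nil _ hnil] at hb
      simp only [ltr, front] at h1
      by_cases h : (x i).toWord.head? = some ((0 : Fin (n i + 2)), false)
      · rw [h] at hb
        simp at hb
        subst hb
        simp [h] at h1
      · simp [h] at h1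
        exact h (h1 ▸ hb)
  · rfl

/-- Every finite set has weight at most polylogarithmic in its size. -/
theorem weight_le_log (d' : 0 < d) {c : ℝ} (hc : 0 < c) :
    ∃ C : ℝ, ∃ K : ℕ, 0 ≤ C ∧ ∀ w : Prd n → ℝ, Weight w c →
      ∀ U : Finset (Prd n), ∑ x ∈ U, w x ≤ C * ((Nat.log 2 U.card : ℝ) + 1) ^ K := by
  classical
  obtain ⟨K0, hK0⟩ : ∃ K0 : ℕ, c⁻¹ ≤ 2 ^ K0 :=
    (pow_unbounded_of_one_lt c⁻¹ one_lt_two).imp fun _ h => h.le
  refine ⟨2 * (c⁻¹) ^ 2 * ((4 * (2 * (d : ℝ) + 1)) ^ (K0 + d)), K0 + d, by positivity,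
    fun w hw U => ?_⟩
  set L := Nat.log 2 U.card
  set k := Nat.clog 2 (2 * d * L + 1)
  set Q : ℝ := 4 * (2 * (d : ℝ) + 1) * ((L : ℝ) + 1)
  have hk1 : 2 * d * L + 1 ≤ 2 ^ k := Nat.le_pow_clog one_lt_two _
  have hk2 : 2 ^ k ≤ 2 * (2 * d * L + 1) := by
    rcases Nat.eq_zero_or_pos k with h | h
    · rw [h]; omega
    · have h2 : 1 < 2 * d * L + 1 := by
        by_contra h3
        have := Nat.clog_of_right_le_one (not_lt.1 h3) 2
        omega
      have h4 := Nat.pow_pred_clog_lt_self one_lt_two h2
      have h5 : 2 ^ k = 2 * 2 ^ (k - 1) := by rw [← pow_succ']; congr 1; omega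
      change 2 ^ (k - 1) < _ at h4
      omega
  -- pad
  set pad : Prd n → Prd n := fun x => gv (front x) * (x * gv (back x))
  have hinj : Function.Injective pad := by
    intro x y h
    funext i
    refine toWord_injective ?_
    have h' := congrArg (fun z : Prd n => (z i).toWord) h
    simp only [pad, toWord_pad, List.cons.injEq] at h'
    exact (List.append_inj' h'.2 rfl).1
  have hpos : ∀ x i, Pos ((pad x i).toWord) := fun x i => by
    simp only [pad, toWord_pad]
    exact ⟨⟨_, _, rfl⟩, ⟨_, ltr i (front x i) :: (x i).toWord, rfl⟩⟩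
  set V := U.image pad with hV
  have hUV : (∑ x ∈ U, w x) * c ^ 2 ≤ ∑ z ∈ V, w z := by
    rw [hV, Finset.sum_image hinj.injOn, Finset.sum_mul]
    refine Finset.sum_le_sum fun x _ => ?_
    calc w x * c ^ 2 = c * (w x * c) := by ring
      _ ≤ w (gv (front x)) * w (x * gv (back x)) := mul_le_mul (hw.gen _)
          ((mul_le_mul_of_nonneg_left (hw.gen _) (hw.nonneg x)).trans (hw.mul_le _ _))
          (mul_nonneg (hw.nonneg x) hc.le) (hw.nonneg _)
      _ ≤ _ := hw.mul_le _ _
  -- a class of lengths
  set cls : Prd n → (Fin d → Fin (k + 1)) := fun x i =>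
    ⟨(x i).toWord.length % (k + 1), Nat.mod_lt _ (Nat.succ_pos k)⟩
  obtain ⟨ρ, -, hρ⟩ := Finset.exists_max_image (Finset.univ : Finset (Fin d → Fin (k + 1)))
    (fun ρ => ∑ z ∈ V.filter (fun z => cls z = ρ), w z) Finset.univ_nonempty
  set W := V.filter fun z => cls z = ρ
  have hVW : ∑ z ∈ V, w z ≤ ((k : ℝ) + 1) ^ d * ∑ z ∈ W, w z := by
    rw [← Finset.sum_fiberwise V cls w]
    refine (Finset.sum_le_card_nsmul _ _ _ hρ).trans_eq ?_
    simp [W]
  have hWV : ∀ z ∈ W, ∀ i, Pos (z i).toWord := fun z hz i => by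
    obtain ⟨x, -, rfl⟩ := Finset.mem_image.1 (Finset.mem_filter.1 hz).1
    exact hpos x i
  have hcard : Nat.log 2 W.card ≤ L := Nat.log_mono_right
    ((Finset.card_filter_le _ _).trans Finset.card_image_le)
  -- labels
  choose lab hlab using fun i : Fin d => exists_labels W (fun z => (z i).toWord) w hw.nonneg
    (ltr_ne (n := n) i) k (W.image fun z => (z i).toWord)
  set ev : Prd n → List (Fin d → Bool) := fun z =>
    List.ofFn fun j : Fin (k + 1) => fun i => lab i ((z i).toWord) j
  set lw : (i : Fin d) → List (Fin (n i + 2) × Bool) → List (Fin (n i + 2) × Bool) := fun i u =>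
    List.ofFn fun j => if lab i u j then ltr i true else ltr i false
  have hlw : ∀ i u, (lw i u).length = k + 1 := fun i u => by simp [lw]
  set ext : Prd n → Prd n := fun z => z * ((ev z).map gv).prod
  have hword : ∀ z ∈ W, ∀ i, (ext z i).toWord = (z i).toWord ++ lw i (z i).toWord := by
    intro z hz i
    have e : ((ev z).map fun v => (ltr i (v i) : Fin (n i + 2) × Bool)) = lw i (z i).toWord := by
      simp only [ev, lw, List.map_ofFn, Function.comp_def]
      congr 1
      funext j
      cases lab i (z i).toWord j <;> rfl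
    simp only [ext, Pi.mul_apply]
    rw [toWord_mul_eq, toWord_list, e]
    intro a ha b hb _
    obtain ⟨q, r, hr⟩ := (hWV z hz i).2
    rw [hr] at ha
    simp at ha
    rw [toWord_list] at hb
    obtain ⟨v, -, rfl⟩ := List.mem_map.1 (List.mem_of_mem_head? hb)
    rw [← ha]
    rfl
  set killed : Prd n → Prop := fun z =>
    ∃ i, ∃ u ∈ W.image (fun z' => (z' i).toWord), u ++ lw i u <+: (z i).toWord
  set X := W.filter fun z => ¬ killed z
  have hkill : ∑ z ∈ W.filter killed, w z ≤ (∑ z ∈ W, w z) / 2 := by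
    have h1 : ∑ z ∈ W.filter killed, w z ≤ ∑ z ∈ W, ∑ i : Fin d,
        (if ∃ u ∈ W.image (fun z' => (z' i).toWord), u ++ lw i u <+: (z i).toWord
          then w z else 0) := by
      rw [Finset.sum_filter]
      refine Finset.sum_le_sum fun z _ => ?_
      have h0 : ∀ i : Fin d, 0 ≤ (if ∃ u ∈ W.image (fun z' => (z' i).toWord),
          u ++ lw i u <+: (z i).toWord then w z else 0) := fun i => by
        split_ifs <;> simp [hw.nonneg]
      split_ifs with h
      · obtain ⟨i, hi⟩ := h
        exact (le_of_eq (by rw [if_pos hi])).trans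
          (Finset.single_le_sum (fun j _ => h0 j) (Finset.mem_univ i))
      · exact Finset.sum_nonneg fun j _ => h0 j
    rw [Finset.sum_comm] at h1
    refine h1.trans ((Finset.sum_le_sum fun i _ => hlab i).trans ?_)
    rw [Finset.sum_const, Finset.card_univ, Fintype.card_fin, nsmul_eq_mul, ← mul_assoc]
    have hWn : 0 ≤ ∑ z ∈ W, w z := Finset.sum_nonneg fun z _ => hw.nonneg z
    have h2 : (d : ℝ) * ((Nat.log 2 W.card : ℝ) / 2 ^ k) ≤ 1 / 2 := by
      rw [mul_div_assoc', div_le_iff₀ (by positivity)]
      have h3 : (2 * d * L + 1 : ℝ) ≤ 2 ^ k := by exact_mod_cast hk1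
      have h4 : (d : ℝ) * Nat.log 2 W.card ≤ (d : ℝ) * L :=
        mul_le_mul_of_nonneg_left (Nat.cast_le.2 hcard) (Nat.cast_nonneg _)
      linarith
    exact (mul_le_mul_of_nonneg_right h2 hWn).trans (le_of_eq (by ring))
  have hWX : ∑ z ∈ W, w z ≤ 2 * ∑ z ∈ X, w z := by
    have := Finset.sum_filter_add_sum_filter_not W killed w
    change _ + ∑ z ∈ X, w z = _ at this
    linarith
  have hX : ∀ z ∈ X, z ∈ W := fun z hz => (Finset.mem_filter.1 hz).1
  -- the survivors form a code
  have hext : Set.InjOn ext X := by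
    intro z hz z' hz' h
    funext i
    refine toWord_injective ?_
    have h' := congrArg (fun t : Prd n => (t i).toWord) h
    simp only [hword z (hX z hz), hword z' (hX z' hz')] at h'
    exact (List.append_inj' h' (by rw [hlw, hlw])).1
  have hnot : ∀ z ∈ X, ∀ z' ∈ X, ∀ i, (z i).toWord.length ≤ (z' i).toWord.length →
      (z i).toWord ≠ (z' i).toWord →
      ¬ (ext z i).toWord <+: (ext z' i).toWord ∧ ¬ (ext z' i).toWord <+: (ext z i).toWord := by
    intro z hz z' hz' i hle hne
    rw [hword z (hX z hz), hword z' (hX z' hz')]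
    rcases hle.lt_or_eq with hlt | heq
    · have hlong : (z i).toWord.length + (k + 1) ≤ (z' i).toWord.length := by
        have h1 := congrArg (fun f => (f i).val) ((Finset.mem_filter.1 (hX z hz)).2.trans
          (Finset.mem_filter.1 (hX z' hz')).2.symm)
        simp only [cls] at h1
        have h2 := (Nat.modEq_iff_dvd' hlt.le).1 h1
        have h3 := Nat.le_of_dvd (by omega) h2
        omega
      constructor
      · intro hp
        refine (Finset.mem_filter.1 hz').2 ⟨i, _, Finset.mem_image_of_mem _ (hX z hz), ?_⟩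
        refine List.prefix_of_prefix_length_le hp (List.prefix_append _ _) ?_
        rw [List.length_append, hlw]
        omega
      · intro hp
        have := hp.length_le
        simp only [List.length_append, hlw] at this
        omega
    · constructor <;> intro hp <;>
        have h1 := hp.eq_of_length (by simp [hlw, heq]) <;>
        have h2 := (List.append_inj' h1 (by rw [hlw, hlw])).1
      · exact hne h2
      · exact hne h2.symm
  have hcode : ∑ z ∈ X.image ext, w z ≤ 1 := by
    refine hw.code _ ?_ ?_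
    · intro t ht i
      obtain ⟨z, hz, rfl⟩ := Finset.mem_image.1 ht
      obtain ⟨⟨a, r, hr⟩, -⟩ := hWV z (hX z hz) i
      rw [hword z (hX z hz) i]
      refine ⟨⟨a, r ++ lw i (z i).toWord, by rw [hr]; rfl⟩, ?_⟩
      set l := lw i (z i).toWord with hl
      have hne : l ≠ [] := List.ne_nil_of_length_pos (by rw [hl, hlw]; omega)
      obtain ⟨b, hb⟩ : ∃ b, l.getLast hne = (b, true) := by
        have hm := List.getLast_mem hne
        simp only [hl, lw, List.mem_ofFn, Set.mem_range] at hm
        obtain ⟨j, hj⟩ := hm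
        cases h : lab i (z i).toWord j <;> rw [h] at hj <;> exact ⟨_, hj.symm⟩
      exact ⟨b, (z i).toWord ++ l.dropLast, by
        rw [List.append_assoc, ← hb, List.dropLast_append_getLast hne]⟩
    · intro t ht t' ht' hne
      obtain ⟨z, hz, rfl⟩ := Finset.mem_image.1 ht
      obtain ⟨z', hz', rfl⟩ := Finset.mem_image.1 ht'
      obtain ⟨i, hi⟩ : ∃ i, (z i).toWord ≠ (z' i).toWord := by
        by_contra h
        exact hne (congrArg ext (funext fun i => toWord_injective
          (by_contra fun h' => h ⟨i, h'⟩)))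
      rcases le_total (z i).toWord.length (z' i).toWord.length with h | h
      · exact ⟨i, hnot z hz z' hz' i h hi⟩
      · exact ⟨i, (hnot z' hz' z hz i h hi.symm).symm⟩
  rw [Finset.sum_image hext] at hcode
  have hXb : (∑ z ∈ X, w z) * c ^ (k + 1) ≤ 1 := by
    refine le_trans ?_ hcode
    rw [Finset.sum_mul]
    refine Finset.sum_le_sum fun z _ => ?_
    have := hw.mul_prod hc.le (ev z) z
    simp only [ev, List.length_ofFn] at this
    exact this
  have hXb' : ∑ z ∈ X, w z ≤ (c⁻¹) ^ (k + 1) := by
    rw [inv_pow, ← one_div, le_div_iff₀ (pow_pos hc _)]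
    exact hXb
  have hQ : (2 : ℝ) ^ (k + 1) ≤ Q := by
    have h1 : (2 : ℝ) ^ k ≤ 2 * (2 * d * L + 1) := by exact_mod_cast hk2
    have : (0 : ℝ) ≤ (d : ℝ) := Nat.cast_nonneg _
    have : (0 : ℝ) ≤ (L : ℝ) := Nat.cast_nonneg _
    rw [pow_succ]
    simp only [Q]
    nlinarith
  have hU : ∑ x ∈ U, w x ≤ (c⁻¹) ^ 2 * ∑ z ∈ V, w z := by
    rw [inv_pow, ← div_eq_inv_mul, le_div_iff₀ (pow_pos hc _)]
    exact hUV
  calc ∑ x ∈ U, w x ≤ (c⁻¹) ^ 2 * (((k : ℝ) + 1) ^ d * (2 * (c⁻¹) ^ (k + 1))) := by
        refine hU.trans (mul_le_mul_of_nonneg_left (hVW.trans ?_) (by positivity))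
        exact mul_le_mul_of_nonneg_left (hWX.trans (by linarith)) (by positivity)
    _ ≤ (c⁻¹) ^ 2 * (Q ^ d * (2 * Q ^ K0)) := by
        have h1 : (c⁻¹) ^ (k + 1) ≤ Q ^ K0 := by
          refine (pow_le_pow_left₀ (by positivity) hK0 _).trans ?_
          rw [← pow_mul, mul_comm, pow_mul]
          exact pow_le_pow_left₀ (by positivity) hQ _
        have h2 : ((k : ℝ) + 1) ≤ Q := le_trans (by
          exact_mod_cast (Nat.lt_two_pow_self (n := k + 1)).le) hQ
        gcongr
    _ = _ := by simp only [Q, mul_pow, pow_add]; ring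

end Vale.Agent.P165FreeProd
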