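import Vale.Agent.P165FreeProd.Code

/-!
# Groups with a product of free groups of finite index
-/

namespace Vale.Agent.P165FreeProd

open FreeGroup

variable {d : ℕ} {n : Fin d → ℕ} {Γ : Type*} [Group Γ]

/-- Representatives for the right cosets of the image of a product of free groups. -/
structure Dec (emb : Prd n →* Γ) where
  /-- the representatives -/
  R : Finset Γ
  /-- the component in the product -/
  hc : Γ → Prd n
  /-- the representative -/
  rc : Γ → Γ
  mem : ∀ x, rc x ∈ R
  eq : ∀ x, emb (hc x) * rc x = x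
  equiv : ∀ h x, hc (emb h * x) = h * hc x

theorem exists_dec (emb : Prd n →* Γ) (hinj : Function.Injective emb)
    (hfi : emb.range.FiniteIndex) : Nonempty (Dec emb) := by
  classical
  haveI := hfi
  haveI : Fintype (Γ ⧸ emb.range) := Subgroup.fintypeQuotientOfFiniteIndex
  set rc : Γ → Γ := fun x => (QuotientGroup.mk x⁻¹ : Γ ⧸ emb.range).out⁻¹
  have h1 : ∀ x, ∃ h : Prd n, emb h * rc x = x := by
    intro x
    obtain ⟨⟨_, h, rfl⟩, e⟩ := QuotientGroup.mk_out_eq_mul emb.range x⁻¹
    refine ⟨h, ?_⟩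
    simp only [rc, e, mul_inv_rev, inv_inv]
    group
  choose hc hhc using h1
  refine ⟨⟨(Finset.univ : Finset (Γ ⧸ emb.range)).image (fun q => q.out⁻¹), hc, rc,
    fun x => Finset.mem_image_of_mem _ (Finset.mem_univ _), hhc, fun h x => hinj ?_⟩⟩
  have e : rc (emb h * x) = rc x := by
    simp only [rc]
    congr 2
    rw [QuotientGroup.eq]
    simp [mul_assoc]
  have h2 := hhc (emb h * x)
  rw [e] at h2
  rw [_root_.map_mul]
  refine mul_right_cancel (b := rc x) ?_
  rw [h2, mul_assoc, hhc]

variable {emb : Prd n →* Γ} (D : Dec emb)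

/-- The total word length of the component in the product. -/
def Dec.len (x : Γ) : ℕ := ∑ i, ((D.hc x i).toWord).length

theorem Dec.len_mul (x s : Γ) : D.len (x * s) ≤ D.len x + D.len (D.rc x * s) := by
  have e : D.hc (x * s) = D.hc x * D.hc (D.rc x * s) := by
    rw [← D.equiv, ← mul_assoc, D.eq]
  simp only [Dec.len, e, ← Finset.sum_add_distrib, Pi.mul_apply]
  exact Finset.sum_le_sum fun i _ => FreeGroup.norm_mul_le _ _

theorem exists_step (T : Finset Γ) : ∃ M : ℕ, ∀ x, ∀ s ∈ T, D.len (x * s) ≤ D.len x + M := by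
  classical
  refine ⟨(D.R ×ˢ T).sup fun q => D.len (q.1 * q.2), fun x s hs => (D.len_mul x s).trans ?_⟩
  exact Nat.add_le_add_left (Finset.le_sup (f := fun q : Γ × Γ => D.len (q.1 * q.2))
    (Finset.mem_product.2 ⟨D.mem x, hs⟩ : (D.rc x, s) ∈ _)) _

theorem ofFn_getElem_reduce {β : Type*} : ∀ (l : List β) (m : ℕ), l.length ≤ m →
    (List.ofFn fun j : Fin m => l[j.val]?).reduceOption = l
  | [], m, _ => by
    induction m with
    | zero => simp
    | succ m ih => simpa [List.ofFn_succ] using ih (Nat.zero_le _)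
  | a :: l, 0, h => by simp at h
  | a :: l, m + 1, h => by
    simp [List.ofFn_succ, List.reduceOption_cons_of_some,
      ofFn_getElem_reduce l m (by simpa using h)]

open Classical in
/-- A finite set holding every element of length below `m`. -/
noncomputable def Dec.cover (m : ℕ) : Finset Γ :=
  (D.R ×ˢ (Finset.univ : Finset (∀ i : Fin d, Fin m → Option (Fin (n i + 2) × Bool)))).image
    fun q => emb (fun i => FreeGroup.mk (List.ofFn (q.2 i)).reduceOption) * q.1

/-- The elements of length below `m`. -/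
noncomputable def Dec.ball (m : ℕ) : Finset Γ := (D.cover m).filter fun x => D.len x < m

theorem Dec.mem_ball {m : ℕ} {x : Γ} : x ∈ D.ball m ↔ D.len x < m := by
  classical
  refine ⟨fun h => (Finset.mem_filter.1 h).2, fun h => Finset.mem_filter.2 ⟨?_, h⟩⟩
  refine Finset.mem_image.2 ⟨(D.rc x, fun i j => ((D.hc x i).toWord)[j.val]?), by simp [D.mem], ?_⟩
  convert D.eq x using 3
  funext i
  rw [ofFn_getElem_reduce, FreeGroup.mk_toWord]
  exact (Finset.single_le_sum (f := fun i => ((D.hc x i).toWord).length)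
    (fun _ _ => Nat.zero_le _) (Finset.mem_univ i)).trans h.le

theorem exists_card_ball : ∃ B : ℕ, ∀ m, (D.ball m).card ≤ B ^ (m + 1) := by
  classical
  set b := ∏ i : Fin d, Fintype.card (Option (Fin (n i + 2) × Bool))
  refine ⟨D.R.card + b, fun m => (Finset.card_filter_le _ _).trans
    (Finset.card_image_le.trans ?_)⟩
  rw [Finset.card_product, Finset.card_univ, Fintype.card_pi, pow_succ']
  refine Nat.mul_le_mul (Nat.le_add_right _ _) ?_
  simp only [Fintype.card_fun, Fintype.card_fin, Finset.prod_pow]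
  exact Nat.pow_le_pow_left (Nat.le_add_left _ _) _

open Classical in
/-- A convolution inequality of Haagerup type, for functions carried by a ball. -/
theorem conv_le [DecidableEq Γ] (hinj : Function.Injective emb) {m : ℕ} {A : Finset Γ}
    (hA : ∀ x ∈ A, D.len x ≤ m) (Z B : Finset Γ) (f g : Γ → ℝ) :
    ∑ z ∈ Z, (∑ x ∈ A.filter (fun x => x⁻¹ * z ∈ B), f x * g (x⁻¹ * z)) ^ 2 ≤
      (((D.R.card : ℝ) * D.R.card * (((m : ℝ) + 1) ^ d * ((m : ℝ) + 1) ^ d)) ^ 2) *
        ((∑ x ∈ A, f x ^ 2) * ∑ y ∈ B, g y ^ 2) := by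
  have hlen : ∀ x ∈ A, ∀ i, ((D.hc x i).toWord).length ≤ m := fun x hx i =>
    (Finset.single_le_sum (f := fun i => ((D.hc x i).toWord).length)
      (fun _ _ => Nat.zero_le _) (Finset.mem_univ i)).trans (hA x hx)
  choose ca cb hca hcb hw using fun (i : Fin d) (h k : FreeGroup (Fin (n i + 2))) => exists_key h k
  set K := (D.R ×ˢ D.R) ×ˢ
    ((Finset.univ : Finset (Fin d → Fin (m + 1))) ×ˢ (Finset.univ : Finset (Fin d → Fin (m + 1))))
  set key : Γ → Γ → (Γ × Γ) × ((Fin d → Fin (m + 1)) × (Fin d → Fin (m + 1))) := fun x z =>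
    ((D.rc x, D.rc z), (fun i => ⟨min (ca i (D.hc x i) (D.hc z i)) m, by omega⟩,
      fun i => ⟨min (cb i (D.hc x i) (D.hc z i)) m, by omega⟩))
  have hkeyK : ∀ x z, key x z ∈ K := fun x z => by simp [K, key, D.mem]
  set F : _ → Γ → ℝ := fun κ z =>
    ∑ x ∈ A.filter (fun x => x⁻¹ * z ∈ B ∧ key x z = κ), f x * g (x⁻¹ * z)
  have hsplit : ∀ z, ∑ x ∈ A.filter (fun x => x⁻¹ * z ∈ B), f x * g (x⁻¹ * z) = ∑ κ ∈ K, F κ z := by
    intro z
    rw [← Finset.sum_fiberwise_of_maps_to (g := fun x => key x z) (fun x _ => hkeyK x z)]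
    refine Finset.sum_congr rfl fun κ _ => Finset.sum_congr ?_ fun _ _ => rfl
    rw [Finset.filter_filter]
  have hF : ∀ κ ∈ K, ∑ z ∈ Z, F κ z ^ 2 ≤ (∑ x ∈ A, f x ^ 2) * ∑ y ∈ B, g y ^ 2 := by
    intro κ _
    set cl : Γ → Finset Γ := fun z => A.filter fun x => x⁻¹ * z ∈ B ∧ key x z = κ
    calc ∑ z ∈ Z, F κ z ^ 2
        ≤ ∑ z ∈ Z, (∑ x ∈ cl z, f x ^ 2) * ∑ x' ∈ cl z, g (x'⁻¹ * z) ^ 2 :=
          Finset.sum_le_sum fun z _ => Finset.sum_mul_sq_le_sq_mul_sq _ _ _
      _ = ∑ q ∈ Z.sigma (fun z => cl z ×ˢ cl z), f q.2.1 ^ 2 * g (q.2.2⁻¹ * q.1) ^ 2 := by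
          rw [Finset.sum_sigma]
          exact Finset.sum_congr rfl fun z _ => by rw [Finset.sum_mul_sum, Finset.sum_product]
      _ = ∑ q ∈ (Z.sigma fun z => cl z ×ˢ cl z).image (fun q => (q.2.1, q.2.2⁻¹ * q.1)),
            f q.1 ^ 2 * g q.2 ^ 2 := by
          rw [Finset.sum_image]
          rintro ⟨z, x, x'⟩ hq ⟨z₁, x₁, x₁'⟩ hq₁ he
          simp only [Finset.mem_coe, Finset.mem_sigma, Finset.mem_product, cl,
            Finset.mem_filter] at hq hq₁
          simp only [Prod.mk.injEq] at he
          obtain ⟨rfl, he⟩ := he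
          obtain ⟨-, ⟨hxA, -, kx⟩, ⟨hxA', -, kx'⟩⟩ := hq
          obtain ⟨-, ⟨-, -, kx₁⟩, ⟨hxA₁', -, kx₁'⟩⟩ := hq₁
          have r1 : D.rc z = D.rc z₁ := by
            have := congrArg (fun q => q.1.2) (kx.trans kx₁.symm)
            simpa [key] using this
          have r2 : D.rc x' = D.rc x₁' := by
            have := congrArg (fun q => q.1.1) (kx'.trans kx₁'.symm)
            simpa [key] using this
          have hY : (D.hc x')⁻¹ * D.hc z = (D.hc x₁')⁻¹ * D.hc z₁ := by
            refine hinj ?_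
            have e : ∀ (x z : Γ), emb ((D.hc x)⁻¹ * D.hc z) =
                D.rc x * (x⁻¹ * z) * (D.rc z)⁻¹ := by
              intro x z
              have hx : emb (D.hc x) = x * (D.rc x)⁻¹ := eq_mul_inv_of_mul_eq (D.eq x)
              have hz : emb (D.hc z) = z * (D.rc z)⁻¹ := eq_mul_inv_of_mul_eq (D.eq z)
              rw [_root_.map_mul, _root_.map_inv, hx, hz, mul_inv_rev, inv_inv]
              simp only [mul_assoc]
            rw [e, e, r1, r2, he]
          have hz : D.hc z = D.hc z₁ := by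
            funext i
            refine toWord_injective ?_
            have a1 := congrArg (fun q => (q.2.1 i).val) (kx.trans kx₁.symm)
            have a2 := congrArg (fun q => (q.2.1 i).val) (kx.trans kx'.symm)
            have a3 := congrArg (fun q => (q.2.1 i).val) (kx₁.trans kx₁'.symm)
            have b1 := congrArg (fun q => (q.2.2 i).val) (kx'.trans kx₁'.symm)
            simp only [key] at a1 a2 a3 b1
            have l1 := hlen x hxA i
            have l2 := hlen x' hxA' i
            have l3 := hlen x₁' hxA₁' i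
            have m1 := hca i (D.hc x i) (D.hc z i)
            have m2 := hca i (D.hc x i) (D.hc z₁ i)
            have m5 := hcb i (D.hc x' i) (D.hc z i)
            have m6 := hcb i (D.hc x₁' i) (D.hc z₁ i)
            have m3 := hca i (D.hc x' i) (D.hc z i)
            have m4 := hca i (D.hc x₁' i) (D.hc z₁ i)
            have A1 : ca i (D.hc x i) (D.hc z i) = ca i (D.hc x i) (D.hc z₁ i) := by omega
            have A2 : ca i (D.hc x i) (D.hc z i) = ca i (D.hc x' i) (D.hc z i) := by omega
            have A3 : ca i (D.hc x i) (D.hc z₁ i) = ca i (D.hc x₁' i) (D.hc z₁ i) := by omega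
            have B1 : cb i (D.hc x' i) (D.hc z i) = cb i (D.hc x₁' i) (D.hc z₁ i) := by omega
            have hYi : (D.hc x' i)⁻¹ * D.hc z i = (D.hc x₁' i)⁻¹ * D.hc z₁ i := congrFun hY i
            -- the beginning, from `x`
            have u1 : (D.hc z i).toWord.take (ca i (D.hc x i) (D.hc z i)) =
                (D.hc x i).toWord.take (ca i (D.hc x i) (D.hc z i)) := by
              conv_lhs => rw [hw i (D.hc x i) (D.hc z i), List.take_append_of_le_length
                (by rw [List.length_take]; omega), List.take_take, min_self]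
            have u2 : (D.hc z₁ i).toWord.take (ca i (D.hc x i) (D.hc z i)) =
                (D.hc x i).toWord.take (ca i (D.hc x i) (D.hc z i)) := by
              rw [A1]
              conv_lhs => rw [hw i (D.hc x i) (D.hc z₁ i), List.take_append_of_le_length
                (by rw [List.length_take]; omega), List.take_take, min_self]
            -- the end, from the quotient
            have w1 : (D.hc z i).toWord.drop (ca i (D.hc x i) (D.hc z i)) =
                ((D.hc x' i)⁻¹ * D.hc z i).toWord.drop (cb i (D.hc x' i) (D.hc z i)) := by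
              rw [A2]
              conv_lhs => rw [hw i (D.hc x' i) (D.hc z i),
                List.drop_left' (by rw [List.length_take]; omega)]
            have w2 : (D.hc z₁ i).toWord.drop (ca i (D.hc x i) (D.hc z i)) =
                ((D.hc x₁' i)⁻¹ * D.hc z₁ i).toWord.drop (cb i (D.hc x₁' i) (D.hc z₁ i)) := by
              rw [A1, A3]
              conv_lhs => rw [hw i (D.hc x₁' i) (D.hc z₁ i),
                List.drop_left' (by rw [List.length_take]; omega)]
            rw [← List.take_append_drop (ca i (D.hc x i) (D.hc z i)) (D.hc z i).toWord,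
              ← List.take_append_drop (ca i (D.hc x i) (D.hc z i)) (D.hc z₁ i).toWord,
              u1, u2, w1, w2, hYi, B1]
          have hzz : z = z₁ := by rw [← D.eq z, ← D.eq z₁, hz, r1]
          subst hzz
          have hxx : x' = x₁' := inv_injective (mul_right_cancel he)
          subst hxx
          rfl
      _ ≤ ∑ q ∈ A ×ˢ B, f q.1 ^ 2 * g q.2 ^ 2 := by
          refine Finset.sum_le_sum_of_subset_of_nonneg ?_ fun q _ _ => by positivity
          intro q hq
          obtain ⟨⟨z, x, x'⟩, hm, rfl⟩ := Finset.mem_image.1 hq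
          simp only [Finset.mem_sigma, Finset.mem_product, cl, Finset.mem_filter] at hm
          exact Finset.mem_product.2 ⟨hm.2.1.1, hm.2.2.2.1⟩
      _ = _ := by rw [Finset.sum_mul_sum, Finset.sum_product]
  calc ∑ z ∈ Z, (∑ x ∈ A.filter (fun x => x⁻¹ * z ∈ B), f x * g (x⁻¹ * z)) ^ 2
      ≤ ∑ z ∈ Z, (K.card : ℝ) * ∑ κ ∈ K, F κ z ^ 2 := Finset.sum_le_sum fun z _ => by
        rw [hsplit]; exact sq_sum_le_card_mul_sum_sq
    _ = (K.card : ℝ) * ∑ κ ∈ K, ∑ z ∈ Z, F κ z ^ 2 := by rw [← Finset.mul_sum, Finset.sum_comm]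
    _ ≤ (K.card : ℝ) * ∑ κ ∈ K, (∑ x ∈ A, f x ^ 2) * ∑ y ∈ B, g y ^ 2 :=
        mul_le_mul_of_nonneg_left (Finset.sum_le_sum hF) (Nat.cast_nonneg _)
    _ = _ := by
        rw [Finset.sum_const, nsmul_eq_mul, ← mul_assoc, ← pow_two]
        congr 2
        simp [K]

/-- What is used of the connection function. -/
structure GWeight (emb : Prd n →* Γ) (R : Finset Γ) (w : Γ → ℝ) (c : ℝ) : Prop where
  nonneg : ∀ x, 0 ≤ w x
  mul_le : ∀ x y, w x * w y ≤ w (x * y)
  gen : ∀ v, c ≤ w (emb (gv v))
  rep : ∀ r ∈ R, c ≤ w r⁻¹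
  code : ∀ E : Finset Γ, (∀ l l' : List Γ, (∀ x ∈ l, x ∈ E) → (∀ x ∈ l', x ∈ E) →
    l.length = l'.length → l.prod = l'.prod → l = l') → ∑ x ∈ E, w x ≤ 1

omit [Group Γ] in
theorem prod_injective (E : Finset (Prd n)) (hp : ∀ x ∈ E, ∀ i, Pos (x i).toWord)
    (hi : ∀ x ∈ E, ∀ y ∈ E, x ≠ y → Incomp x y) :
    ∀ l l' : List (Prd n), (∀ x ∈ l, x ∈ E) → (∀ x ∈ l', x ∈ E) →
      l.length = l'.length → l.prod = l'.prod → l = l'
  | [], [], _, _, _, _ => rfl
  | [], _ :: _, _, _, h, _ => by simp at h
  | _ :: _, [], _, _, h, _ => by simp at h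
  | x :: l, y :: l', hl, hl', hlen, he => by
    have hw : ∀ (m : List (Prd n)), (∀ z ∈ m, z ∈ E) → ∀ i,
        (m.prod i).toWord = (m.map fun z => (z i).toWord).flatten := by
      intro m hm i
      have e : m.prod i = (m.map fun z => z i).prod :=
        map_list_prod (Pi.evalMonoidHom (fun i => FreeGroup (Fin (n i + 2))) i) m
      rw [e, toWord_prod_pos _ (by
        intro z hz
        obtain ⟨u, hu, rfl⟩ := List.mem_map.1 hz
        exact hp u (hm u hu) i), List.map_map]
      rfl
    have hxy : x = y := by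
      by_contra hne
      obtain ⟨i, h1, h2⟩ := hi x (hl x (by simp)) y (hl' y (by simp)) hne
      have hh := congrArg (fun z : Prd n => (z i).toWord) he
      simp only [hw _ hl, hw _ hl', List.map_cons, List.flatten_cons] at hh
      rcases le_total (x i).toWord.length (y i).toWord.length with h | h
      · exact h1 (List.prefix_of_prefix_length_le (hh ▸ List.prefix_append _ _)
          (List.prefix_append _ _) h)
      · exact h2 (List.prefix_of_prefix_length_le (hh.symm ▸ List.prefix_append _ _)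
          (List.prefix_append _ _) h)
    subst hxy
    rw [List.prod_cons, List.prod_cons, mul_right_inj] at he
    rw [prod_injective E hp hi l l' (fun z hz => hl z (List.mem_cons_of_mem _ hz))
      (fun z hz => hl' z (List.mem_cons_of_mem _ hz)) (by simpa using hlen) he]

/-- Every finite subset of the group has weight at most polylogarithmic in its size. -/
theorem gweight_le_log (hinj : Function.Injective emb) (hd : 0 < d) {c : ℝ} (hc : 0 < c) :
    ∃ C : ℝ, ∃ K : ℕ, 0 ≤ C ∧ ∀ w : Γ → ℝ, GWeight emb D.R w c →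
      ∀ U : Finset Γ, ∑ x ∈ U, w x ≤ C * ((Nat.log 2 U.card : ℝ) + 1) ^ K := by
  classical
  obtain ⟨C, K, hC, hb⟩ := weight_le_log (n := n) hd hc
  refine ⟨(D.R.card : ℝ) * C / c, K, by positivity, fun w hw U => ?_⟩
  have hW : Weight (fun h : Prd n => w (emb h)) c :=
    { nonneg := fun h => hw.nonneg _
      mul_le := fun a b => by simpa only [_root_.map_mul] using hw.mul_le (emb a) (emb b)
      gen := hw.gen
      code := fun E hp hi => by
        rw [← Finset.sum_image hinj.injOn]
        refine hw.code _ fun l l' hl hl' hlen he => ?_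
        have pre : ∀ m : List Γ, (∀ x ∈ m, x ∈ E.image emb) →
            ∃ m' : List (Prd n), (∀ x ∈ m', x ∈ E) ∧ m'.map emb = m := by
          intro m
          induction m with
          | nil => exact fun _ => ⟨[], by simp, rfl⟩
          | cons a m ih =>
            intro hm
            obtain ⟨a', ha', rfl⟩ := Finset.mem_image.1 (hm a (by simp))
            obtain ⟨m', h1, rfl⟩ := ih fun x hx => hm x (List.mem_cons_of_mem _ hx)
            exact ⟨a' :: m', by simpa [ha'] using h1, rfl⟩
        obtain ⟨a, ha, rfl⟩ := pre l hl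
        obtain ⟨b, hb, rfl⟩ := pre l' hl'
        rw [← map_list_prod, ← map_list_prod] at he
        rw [prod_injective E hp hi a b ha hb (by simpa using hlen) (hinj he)] }
  have key : ∀ r ∈ D.R, c * ∑ x ∈ U.filter (fun x => D.rc x = r), w x ≤
      C * ((Nat.log 2 U.card : ℝ) + 1) ^ K := by
    intro r hr
    set V := U.filter fun x => D.rc x = r
    have hinjV : Set.InjOn D.hc V := fun x hx y hy h => by
      rw [← D.eq x, ← D.eq y, h, (Finset.mem_filter.1 hx).2, (Finset.mem_filter.1 hy).2]
    refine le_trans ?_ ((hb _ hW (V.image D.hc)).trans (mul_le_mul_of_nonneg_left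
      (pow_le_pow_left₀ (by positivity) (add_le_add (Nat.cast_le.2 (Nat.log_mono_right
        (Finset.card_image_le.trans (Finset.card_filter_le _ _)))) le_rfl) _) hC))
    rw [Finset.sum_image hinjV, Finset.mul_sum]
    refine Finset.sum_le_sum fun x hx => ?_
    have e : emb (D.hc x) = x * r⁻¹ := by
      rw [← (Finset.mem_filter.1 hx).2]
      exact eq_mul_inv_of_mul_eq (D.eq x)
    rw [e, mul_comm]
    exact (mul_le_mul_of_nonneg_left (hw.rep r hr) (hw.nonneg x)).trans (hw.mul_le _ _)
  have h := Finset.sum_le_sum key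
  rw [← Finset.mul_sum, Finset.sum_fiberwise_of_maps_to (fun x _ => D.mem x), Finset.sum_const,
    nsmul_eq_mul] at h
  rw [div_mul_eq_mul_div, le_div_iff₀ hc, mul_comm, mul_assoc]
  exact h

end Vale.Agent.P165FreeProd
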