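import Vale.Agent.P165FreeProd.Exit

/-!
# A nonuniqueness phase on Cayley graphs of groups that are virtually products of free groups
-/

namespace Vale.Agent.P165FreeProd

open MeasureTheory ProbabilityTheory Filter Topology Vale.Agent.P165

universe u

variable {d : ℕ} {n : Fin d → ℕ} {Γ : Type u} [Group Γ] [DecidableEq Γ] (S : Finset Γ)

theorem countable_gamma (hS : Subgroup.closure (S : Set Γ) = ⊤) : Countable Γ := by
  have hc := connected_cay S hS
  refine Set.countable_univ_iff.1 (Set.Countable.mono (s₂ := ⋃ L, (reach (cnb S) L 1 : Set Γ)) ?_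
    (Set.countable_iUnion fun L => (reach (cnb S) L 1).countable_toSet))
  intro v _
  obtain ⟨w⟩ := hc.preconnected 1 v
  exact Set.mem_iUnion.2 ⟨w.length, mem_reach_of_walk (lf_cay S) w⟩

theorem mem_reach_of_le {V : Type*} [DecidableEq V] {G K : SimpleGraph V} {nb : V → Finset V}
    (h : LF G nb) (hle : K ≤ G) {a b : V} (w : K.Walk a b) : b ∈ reach nb w.length a := by
  induction w using SimpleGraph.Walk.concatRec with
  | Hnil => simp [reach]
  | @Hconcat a c b w hcb ih =>
    rw [SimpleGraph.Walk.length_concat]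
    exact Finset.mem_union_right _ (Finset.mem_biUnion.2 ⟨c, ih, h.mem.2 (hle hcb)⟩)

variable [Countable Γ]

/-- The cluster event is bounded by the two-point function. -/
theorem perc_reach_le (p : unitInterval) (x y : Γ) :
    perc (SimpleGraph.mulCayley (S : Set Γ)) p
      {ω | (openGraph (SimpleGraph.mulCayley (S : Set Γ)) ω).Reachable x y} ≤
      ENNReal.ofReal (tau S p (x⁻¹ * y)) := by
  classical
  set E : ℕ → Finset (Sym2 Γ) := fun L => edgesIn (cnb S) (reach (cnb S) L x)
  set A : ℕ → Set (Set (Sym2 Γ)) := fun L => {ω | Conn x y ((E L).filter (· ∈ ω))}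
  have hsub : {ω | (openGraph (SimpleGraph.mulCayley (S : Set Γ)) ω).Reachable x y} ⊆ ⋃ L, A L := by
    rintro ω ⟨q⟩
    refine Set.mem_iUnion.2 ⟨q.length, ⟨q.transfer (edgeGraph _) fun e he => ?_⟩⟩
    induction e using Sym2.ind with
    | _ u v =>
      have h1 : (openGraph (SimpleGraph.mulCayley (S : Set Γ)) ω).Adj u v := q.adj_of_mem_edges he
      simp only [edgeGraph, SimpleGraph.edgeSet_fromEdgeSet, Set.mem_sdiff, Finset.mem_coe,
        Finset.mem_filter, Sym2.mem_diagSet, Sym2.mk_isDiag_iff]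
      have hin : ∀ w ∈ q.support, w ∈ reach (cnb S) q.length x := fun w hw =>
        reach_mono (cnb S) x (q.length_takeUntil_le hw)
          (mem_reach_of_le (lf_cay S) inf_le_left (q.takeUntil w hw))
      exact ⟨⟨(mem_edgesIn (lf_cay S)).2 ⟨h1.1, hin u (q.fst_mem_support_of_mem_edges he),
        hin v (q.snd_mem_support_of_mem_edges he)⟩, h1.2.1⟩, h1.ne⟩
  have hmono : Monotone A := fun a b hab ω hω => conn_mono x y (Finset.filter_subset_filter _
    (edgesIn_mono (lf_cay S) (reach_mono (cnb S) x hab))) hω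
  refine (measure_mono hsub).trans ?_
  rw [hmono.measure_iUnion]
  refine iSup_le fun L => ?_
  rw [perc_finite p (fun e he => ?_) (Conn x y)]
  · exact ENNReal.ofReal_le_ofReal (tauS_le_tau' S p.2.1 p.2.2 _ x y)
  · induction e using Sym2.ind with
    | _ u v => exact ((mem_edgesIn (lf_cay S)).1 he).1

/-- Finite susceptibility excludes infinite clusters. -/
theorem hasInfinite_null (p : unitInterval) (hb : Subcrit S p) :
    perc (SimpleGraph.mulCayley (S : Set Γ)) p
      {ω | HasInfinite (SimpleGraph.mulCayley (S : Set Γ)) ω} = 0 := by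
  classical
  obtain ⟨C, hC⟩ := hb
  set G := SimpleGraph.mulCayley (S : Set Γ)
  refine measure_mono_null (t := ⋃ x, {ω | {y | (openGraph G ω).Reachable x y}.Infinite})
    (fun ω ⟨x, hx⟩ => Set.mem_iUnion.2 ⟨x, hx⟩) (measure_iUnion_null fun x => ?_)
  set f : Γ → ENNReal := fun y => ENNReal.ofReal (tau S p (x⁻¹ * y))
  have hf : ∑' y, f y ≠ ⊤ := by
    refine ne_top_of_le_ne_top (ENNReal.ofReal_ne_top (r := C)) ?_
    rw [ENNReal.tsum_eq_iSup_sum]
    refine iSup_le fun F => ?_
    rw [← ENNReal.ofReal_sum_of_nonneg fun y _ => tau_nonneg S p.2.1 p.2.2 _]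
    refine ENNReal.ofReal_le_ofReal ?_
    rw [← Finset.sum_image (f := tau S p) (g := (x⁻¹ * ·)) fun a _ b _ h => mul_left_cancel h]
    exact hC _
  refine le_antisymm (ge_of_tendsto (ENNReal.tendsto_tsum_compl_atTop_zero hf)
    (Eventually.of_forall fun F => ?_)) zero_le
  refine le_trans (measure_mono (t := ⋃ y ∈ {y | y ∉ F}, {ω | (openGraph G ω).Reachable x y}) ?_)
    ((measure_biUnion_le _ (Set.to_countable _) _).trans
      (ENNReal.tsum_le_tsum fun y => perc_reach_le S p x _))
  intro ω hω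
  obtain ⟨y, hy, hy'⟩ := hω.exists_notMem_finset F
  exact Set.mem_biUnion (show y ∈ {y | y ∉ F} from hy') hy

/-- A square summable two-point function excludes a unique infinite cluster. -/
theorem not_unique_of_sq [Infinite Γ] (p : unitInterval) {C : ℝ}
    (hC : ∀ F : Finset Γ, ∑ x ∈ F, tau S p x ^ 2 ≤ C) :
    perc (SimpleGraph.mulCayley (S : Set Γ)) p
      {ω | UniqueInfinite (SimpleGraph.mulCayley (S : Set Γ)) ω} ≠ 1 := by
  classical
  intro h1
  set G := SimpleGraph.mulCayley (S : Set Γ)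
  set μ := perc G p
  obtain ⟨f, hf⟩ := exists_surjective_nat (Option Γ)
  set B : ℕ → Finset Γ := fun k => ((Finset.range k).image f).eraseNone
  set U : ℕ → Set (Set (Sym2 Γ)) := fun k =>
    {ω | ∃ a ∈ B k, {y | (openGraph G ω).Reachable a y}.Infinite}
  have hUm : Monotone U := fun i j hij ω ⟨a, ha, hi⟩ => by
    refine ⟨a, ?_, hi⟩
    simp only [B, Finset.mem_eraseNone, Finset.mem_image, Finset.mem_range] at ha ⊢
    obtain ⟨k, hk, hka⟩ := ha
    exact ⟨k, by omega, hka⟩
  have hU : (ENNReal.ofReal (3 / 4)) < ⨆ k, μ (U k) := by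
    rw [← hUm.measure_iUnion]
    refine lt_of_lt_of_le ?_ (h1.symm.le.trans (measure_mono ?_))
    · rw [← ENNReal.ofReal_one]
      exact (ENNReal.ofReal_lt_ofReal_iff one_pos).2 (by norm_num)
    · rintro ω ⟨⟨x, hx⟩, -⟩
      obtain ⟨k, hk⟩ := hf (some x)
      refine Set.mem_iUnion.2 ⟨k + 1, x, ?_, hx⟩
      simp only [B, Finset.mem_eraseNone, Finset.mem_image, Finset.mem_range]
      exact ⟨k, Nat.lt_succ_self k, hk⟩
  obtain ⟨k, hk⟩ := lt_iSup_iff.1 hU
  set A := B k
  set ε : ℝ := 1 / (4 * ((A.card : ℝ) * A.card + 1))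
  have hε : 0 < ε := by positivity
  have hbad : {x : Γ | ε < tau S p x}.Finite := by
    by_contra hinf
    obtain ⟨N, hN⟩ := exists_nat_gt (C / ε ^ 2)
    obtain ⟨F, hF, hcard⟩ := Set.Infinite.exists_subset_card_eq hinf N
    have h2 : (N : ℝ) * ε ^ 2 ≤ C := by
      refine le_trans ?_ (hC F)
      rw [← hcard, ← nsmul_eq_mul, ← Finset.sum_const]
      exact Finset.sum_le_sum fun x hx => pow_le_pow_left₀ hε.le (hF hx).le 2
    rw [div_lt_iff₀ (by positivity)] at hN
    linarith
  obtain ⟨g, hg⟩ := (((A ×ˢ A) ×ˢ hbad.toFinset).image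
    fun q : (Γ × Γ) × Γ => q.1.1 * q.2 * q.1.2⁻¹).exists_notMem
  have hsmall : ∀ a ∈ A, ∀ b ∈ A, tau S p (a⁻¹ * (g * b)) ≤ ε := by
    intro a ha b hb
    by_contra hlt
    exact hg (Finset.mem_image.2 ⟨((a, b), a⁻¹ * (g * b)), Finset.mem_product.2
      ⟨Finset.mem_product.2 ⟨ha, hb⟩, hbad.mem_toFinset.2 (not_le.1 hlt)⟩, by group⟩)
  set U' : Set (Set (Sym2 Γ)) :=
    {ω | ∃ a ∈ A, {y | (openGraph G ω).Reachable (shift S g a) y}.Infinite}
  set T : Set (Set (Sym2 Γ)) :=
    ⋃ a ∈ A, ⋃ b ∈ A, {ω | (openGraph G ω).Reachable a (shift S g b)}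
  have hcov : {ω | UniqueInfinite G ω} ⊆ T ∪ ((U k)ᶜ ∪ U'ᶜ) := by
    intro ω hω
    by_cases h2 : ω ∈ U k
    · by_cases h3 : ω ∈ U'
      · obtain ⟨a, ha, hia⟩ := h2
        obtain ⟨b, hb, hib⟩ := h3
        exact Or.inl (Set.mem_biUnion ha (Set.mem_biUnion hb (hω.2 a _ hia hib)))
      · exact Or.inr (Or.inr h3)
    · exact Or.inr (Or.inl h2)
  have hT : μ T ≤ ENNReal.ofReal ((A.card : ℝ) * A.card * ε) := by
    refine (measure_biUnion_finset_le _ _).trans ((Finset.sum_le_sum fun a ha =>
      (measure_biUnion_finset_le _ _).trans (Finset.sum_le_sum fun b hb =>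
        (perc_reach_le S p a (shift S g b)).trans
          (ENNReal.ofReal_le_ofReal (hsmall a ha b hb)))).trans (le_of_eq ?_))
    simp only [Finset.sum_const, nsmul_eq_mul]
    rw [← ENNReal.ofReal_natCast, ← ENNReal.ofReal_mul (by positivity),
      ← ENNReal.ofReal_mul (by positivity), mul_assoc]
  have hc : ∀ V : Set (Set (Sym2 Γ)), MeasurableSet V → ENNReal.ofReal (3 / 4) ≤ μ V →
      μ Vᶜ ≤ ENNReal.ofReal (1 / 4) := by
    intro V hV hle
    rw [prob_compl_eq_one_sub hV]
    refine (tsub_le_tsub_left hle 1).trans (le_of_eq ?_)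
    rw [← ENNReal.ofReal_one, ← ENNReal.ofReal_sub _ (by norm_num)]
    norm_num
  have h3 := h1.symm.le.trans ((measure_mono hcov).trans ((measure_union_le _ _).trans
    (add_le_add hT ((measure_union_le _ _).trans (add_le_add
      (hc _ (measurableSet_meets A id) hk.le)
      (hc _ (measurableSet_meets A (shift S g))
        (hk.le.trans (measure_meets_image (shift S g) p A))))))))
  rw [← ENNReal.ofReal_add (by norm_num) (by norm_num), ← ENNReal.ofReal_add (by positivity)
    (by norm_num), ← ENNReal.ofReal_one, ENNReal.ofReal_le_ofReal_iff (by positivity)] at h3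
  have h4 : (A.card : ℝ) * A.card * ε ≤ 1 / 4 := by
    simp only [ε]
    rw [mul_one_div, div_le_iff₀ (by positivity)]
    linarith
  linarith

omit [Countable Γ] in
theorem phi_one_le (t : ℝ) (ht : 0 ≤ t) :
    phi (cnb S) ({1} : Finset Γ) t 1 ≤ t * (gens S).card := by
  classical
  refine mul_le_mul_of_nonneg_left ?_ ht
  rw [Finset.sum_singleton]
  refine le_trans (mul_le_of_le_one_left (Nat.cast_nonneg _) ?_) ?_
  · have h1 : edgesIn (cnb S) ({1} : Finset Γ) = ∅ := by
      refine Finset.eq_empty_of_forall_notMem fun e he => ?_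
      induction e using Sym2.ind with
      | _ a b =>
        obtain ⟨hab, ha, hb⟩ := (mem_edgesIn (lf_cay S)).1 he
        exact hab.ne ((Finset.mem_singleton.1 ha).trans (Finset.mem_singleton.1 hb).symm)
    rw [h1]
    by_cases h2 : Conn (1 : Γ) 1 ∅ <;> simp [Pr, h2]
  · exact Nat.cast_le.2 ((Finset.card_filter_le _ _).trans Finset.card_image_le)

omit [Countable Γ] in
theorem gv_code (hd : 0 < d) : ∀ x ∈ ({gv (fun _ => false), gv (fun _ => true)} : Finset (Prd n)),
    ∀ y ∈ ({gv (fun _ => false), gv (fun _ => true)} : Finset (Prd n)), x ≠ y → Incomp x y := by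
  intro x hx y hy hne
  refine ⟨⟨0, hd⟩, ?_⟩
  simp only [Finset.mem_insert, Finset.mem_singleton] at hx hy
  have h := ltr_ne (n := n) ⟨0, hd⟩
  rcases hx with rfl | rfl <;> rcases hy with rfl | rfl
  · exact absurd rfl hne
  · simp [toWord_gv, h, h.symm]
  · simp [toWord_gv, h, h.symm]
  · exact absurd rfl hne

/-- The main theorem. -/
theorem pc_lt_pu_of_free_product (hd : 0 < d) (emb : Prd n →* Γ) (hinj : Function.Injective emb)
    (hfi : emb.range.FiniteIndex) (hS : Subgroup.closure (S : Set Γ) = ⊤) :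
    pc (SimpleGraph.mulCayley (S : Set Γ)) < pu (SimpleGraph.mulCayley (S : Set Γ)) := by
  classical
  obtain ⟨D⟩ := exists_dec emb hinj hfi
  haveI : Infinite Γ := by
    haveI : Infinite (Prd n) := by
      refine Infinite.of_injective (fun k : ℕ => (gv (n := n) fun _ => false) ^ k) ?_
      intro a b h
      have h' := congrArg (fun z : Prd n => (z ⟨0, hd⟩).toWord.length) h
      simpa [gv, FreeGroup.toWord_of_pow] using h'
    exact Infinite.of_injective emb hinj
  set G := SimpleGraph.mulCayley (S : Set Γ)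
  have hconn : G.Connected := connected_cay S hS
  have hone : ∀ x : Γ, {z | (openGraph G G.edgeSet).Reachable x z} = Set.univ := fun x => by
    ext z
    have e : openGraph G G.edgeSet = G := by simp [openGraph]
    simp [e, hconn.preconnected x z]
  have hinf1 : perc G 1 {ω | HasInfinite G ω} = 1 := by
    rw [perc, setBernoulli_one]
    exact Measure.dirac_apply_of_mem ⟨1, by rw [hone]; exact Set.infinite_univ⟩
  have huni1 : perc G 1 {ω | UniqueInfinite G ω} = 1 := by
    rw [perc, setBernoulli_one]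
    refine Measure.dirac_apply_of_mem ⟨⟨1, by rw [hone]; exact Set.infinite_univ⟩, fun x y _ _ => ?_⟩
    have : y ∈ {z | (openGraph G G.edgeSet).Reachable x z} := by rw [hone]; trivial
    exact this
  have hmemS : (1 : ℝ) ∈ {t : ℝ | ∃ h : t ∈ Set.Icc (0 : ℝ) 1,
      0 < perc G ⟨t, h⟩ {ω | HasInfinite G ω}} :=
    ⟨⟨zero_le_one, le_rfl⟩, by
      show 0 < perc G 1 {ω | HasInfinite G ω}
      rw [hinf1]
      exact one_pos⟩
  set q := pc G with hqdef
  have hq1 : q ≤ 1 := csInf_le ⟨0, by rintro t ⟨ht, -⟩; exact ht.1⟩ hmemS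
  have hbelow : ∀ t : ℝ, ∀ h : t ∈ Set.Icc (0 : ℝ) 1, t < q →
      perc G ⟨t, h⟩ {ω | HasInfinite G ω} = 0 := by
    intro t h htq
    by_contra hne
    have hmem : t ∈ {t : ℝ | ∃ h : t ∈ Set.Icc (0 : ℝ) 1,
        0 < perc G ⟨t, h⟩ {ω | HasInfinite G ω}} := ⟨h, pos_iff_ne_zero.2 hne⟩
    exact absurd (csInf_le ⟨0, by rintro s ⟨hs, -⟩; exact hs.1⟩ hmem) (not_le.2 htq)
  -- positivity
  set p0 : ℝ := 1 / (2 * ((gens S).card + 1))
  have hp0 : 0 < p0 := by positivity
  have hp01 : p0 ≤ 1 := by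
    rw [div_le_one (by positivity)]
    linarith [(Nat.cast_nonneg (gens S).card : (0 : ℝ) ≤ _)]
  have hsub0 : Subcrit S p0 := by
    refine subcrit_of_phi S hp0.le hp01 (Finset.mem_singleton_self 1)
      ((phi_one_le S p0 hp0.le).trans_lt ?_)
    rw [div_mul_eq_mul_div, one_mul, div_lt_one (by positivity)]
    linarith [(Nat.cast_nonneg (gens S).card : (0 : ℝ) ≤ _)]
  have hq0 : p0 ≤ q := by
    refine le_csInf ⟨1, hmemS⟩ ?_
    rintro t ⟨ht, hpos⟩
    by_contra hlt
    exact hpos.ne' (hasInfinite_null S ⟨t, ht⟩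
      (subcrit_mono S ht.1 (not_le.1 hlt).le hp01 hsub0))
  -- below the threshold the susceptibility is finite
  have hsub : ∀ t, 0 ≤ t → t < q → Subcrit S t := by
    intro t ht htq
    set p2 := (max t (p0 / 2) + q) / 2
    have hm : max t (p0 / 2) < q := max_lt htq (by linarith)
    have h1m : max t (p0 / 2) < p2 := by simp only [p2]; linarith
    have h2q : p2 < q := by simp only [p2]; linarith
    have h20 : 0 ≤ p2 := by linarith [le_max_right t (p0 / 2)]
    by_contra hcon
    have hphi : ∀ r ∈ Set.Icc (max t (p0 / 2)) p2, ∀ B : Finset Γ, (1 : Γ) ∈ B →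
        1 ≤ phi (cnb S) B r 1 := by
      intro r hr B hB
      by_contra hlt
      have hr0 : 0 ≤ r := le_trans (ht.trans (le_max_left _ _)) hr.1
      exact hcon (subcrit_mono S ht ((le_max_left _ _).trans hr.1) (by linarith [hr.2])
        (subcrit_of_phi S hr0 (by linarith [hr.2]) hB (not_le.1 hlt)))
    have hθ := theta_ge (G := G) (lf_cay S) (p1 := max t (p0 / 2))
      (p2 := ⟨p2, h20, by linarith⟩) (by positivity) h1m.le (by show p2 < 1; linarith) (o := 1)
      zero_le_one le_rfl hphi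
    have hz := hbelow p2 ⟨h20, by linarith⟩ h2q
    have hle := hθ.trans (measure_mono (t := {ω | HasInfinite G ω}) fun ω hω => ⟨1, hω⟩)
    rw [hz, nonpos_iff_eq_zero, ENNReal.ofReal_eq_zero] at hle
    have hexp : Real.exp (1 * max t (p0 / 2) - 1 * p2) < 1 := Real.exp_lt_one_iff.2 (by linarith)
    exact absurd hle (by
      show ¬ (1 - Real.exp (1 * max t (p0 / 2) - 1 * p2) ≤ 0)
      linarith)
  -- the threshold is below one
  obtain ⟨k1, hk1⟩ := exists_uniform_pow S hS
    {emb (gv (n := n) fun _ => false), emb (gv (n := n) fun _ => true)}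
  have hv : (gv (n := n) fun _ => false) ≠ gv fun _ => true := fun h => ltr_ne (n := n) ⟨0, hd⟩ (by
    have h' := congrArg (fun z : Prd n => (z ⟨0, hd⟩).toWord) h
    simpa [toWord_gv] using h')
  have htwo : ∀ t : ℝ, 0 ≤ t → t < q → 2 * t ^ k1 ≤ 1 := by
    intro t ht htq
    have h1 : t ≤ 1 := htq.le.trans hq1
    set E : Finset (Prd n) := {gv (fun _ => false), gv (fun _ => true)}
    have hcode := code_le_one S ht h1 (hsub t ht htq) (E.image emb) (by
      intro l l' hl hl' hlen he
      have pre : ∀ m : List Γ, (∀ x ∈ m, x ∈ E.image emb) →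
          ∃ m' : List (Prd n), (∀ x ∈ m', x ∈ E) ∧ m'.map emb = m := by
        intro m
        induction m with
        | nil => exact fun _ => ⟨[], by simp, rfl⟩
        | cons a m ih =>
          intro hm
          obtain ⟨a', ha', rfl⟩ := Finset.mem_image.1 (hm a (by simp))
          obtain ⟨m', h1, rfl⟩ := ih fun x hx => hm x (List.mem_cons_of_mem _ hx)
          exact ⟨a' :: m', by simpa [ha'] using h1, rfl⟩
      obtain ⟨a, ha, rfl⟩ := pre l hl
      obtain ⟨b, hb, rfl⟩ := pre l' hl'
      rw [← map_list_prod, ← map_list_prod] at he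
      rw [prod_injective E (fun x hx i => by
        simp only [E, Finset.mem_insert, Finset.mem_singleton] at hx
        rcases hx with rfl | rfl <;> rw [toWord_gv] <;> exact pos_singleton i _)
        (gv_code hd) a b ha hb (by simpa using hlen) (hinj he)])
    rw [Finset.sum_image hinj.injOn, Finset.sum_pair hv] at hcode
    have h2 := hk1 t ht h1 _ (Finset.mem_insert_self _ _)
    have h3 := hk1 t ht h1 _ (Finset.mem_insert_of_mem (Finset.mem_singleton_self _))
    linarith
  have hqlt : q < 1 := by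
    refine lt_of_le_of_ne hq1 fun hq => ?_
    have hlim : (2 : ℝ) * q ^ k1 ≤ 1 := by
      refine le_of_tendsto (((continuous_const.mul (continuous_pow k1)).tendsto q).mono_left
        (nhdsWithin_le_nhds (s := Set.Iio q))) ?_
      filter_upwards [Ico_mem_nhdsLT (hp0.trans_le hq0)] with t ht using htwo t ht.1 ht.2
    rw [hq, one_pow] at hlim
    norm_num at hlim
  -- openness
  obtain ⟨i, hi, H, hH, hk⟩ := exists_kap_lt D S hinj hd hS (p0 := p0 / 2) (q := q) (by positivity)
    (by linarith) hq1 fun t ht htq => hsub t (by linarith) htq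
  obtain ⟨δ, hδ, hball⟩ := Metric.eventually_nhds_iff.1
    ((continuous_kap D S i H).continuousAt.eventually (gt_mem_nhds hk))
  refine lt_of_lt_of_le (lt_min (show q < q + δ by linarith) hqlt) (le_csInf ⟨1, ⟨zero_le_one, le_rfl⟩,
    huni1⟩ ?_)
  rintro t ⟨ht, hu⟩
  by_contra hlt
  obtain ⟨htδ, -⟩ := lt_min_iff.1 (not_le.1 hlt)
  rcases lt_or_ge t q with htq | htq
  · have h0 := hbelow t ht htq
    have := (measure_mono (μ := perc G ⟨t, ht⟩) (s := {ω | UniqueInfinite G ω})
      (t := {ω | HasInfinite G ω}) fun ω hω => hω.1).trans h0.le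
    rw [hu] at this
    simp at this
  · have hk' : D.kap S i H t < 1 := hball (by
      rw [Real.dist_eq, abs_of_nonneg (sub_nonneg.2 htq)]
      linarith)
    exact not_unique_of_sq S ⟨t, ht⟩ (fun F => sq_le_of_kap D S hinj ht.1 ht.2 hi hH hk' F) hu

end Vale.Agent.P165FreeProd
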