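import Mathlib

/-!
# Reduced words: junctions, products of positive blocks, and a convolution inequality
-/

namespace Vale.Agent.P165FreeProd

open FreeGroup

variable {α : Type*} [DecidableEq α]

/-- The first and the last letter are generators, not inverses. -/
def Pos (l : List (α × Bool)) : Prop :=
  (∃ a r, l = (a, true) :: r) ∧ ∃ a r, l = r ++ [(a, true)]

theorem toWord_mul_eq {x y : FreeGroup α}
    (h : ∀ a ∈ x.toWord.getLast?, ∀ b ∈ y.toWord.head?, a.1 = b.1 → a.2 = b.2) :
    (x * y).toWord = x.toWord ++ y.toWord := by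
  rw [toWord_mul]
  exact IsReduced.reduce_eq (List.IsChain.append isReduced_toWord isReduced_toWord h)

omit [DecidableEq α] in
theorem head_flatten_pos : ∀ (l : List (List (α × Bool))), (∀ w ∈ l, Pos w) →
    ∀ b ∈ l.flatten.head?, b.2 = true
  | [], _, b, hb => by simp at hb
  | w :: l, h, b, hb => by
    obtain ⟨a, r, rfl⟩ := (h w (List.mem_cons_self ..)).1
    simp at hb
    rw [← hb]

theorem toWord_prod_pos : ∀ (l : List (FreeGroup α)), (∀ x ∈ l, Pos x.toWord) →
    l.prod.toWord = (l.map toWord).flatten
  | [], _ => by simp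
  | x :: l, h => by
    have ih := toWord_prod_pos l fun y hy => h y (List.mem_cons_of_mem _ hy)
    rw [List.prod_cons, List.map_cons, List.flatten_cons, ← ih]
    refine toWord_mul_eq fun a ha b hb _ => ?_
    obtain ⟨c, r, hr⟩ := (h x (List.mem_cons_self ..)).2
    rw [hr] at ha
    simp at ha
    have hb2 : b.2 = true := head_flatten_pos (l.map toWord) (fun w hw => by
      obtain ⟨y, hy, rfl⟩ := List.mem_map.1 hw
      exact h y (List.mem_cons_of_mem _ hy)) b (ih ▸ hb)
    rw [← ha, hb2]

/-- Two reduced words split after their common beginning. -/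
theorem exists_split : ∀ (l m : List (α × Bool)), IsReduced l → IsReduced m →
    ∃ u l' m', l = u ++ l' ∧ m = u ++ m' ∧ IsReduced (invRev l' ++ m')
  | [], m, _, hm => ⟨[], [], m, rfl, rfl, by simpa using hm⟩
  | a :: l, [], hl, _ => ⟨[], a :: l, [], rfl, rfl, by
      rw [List.append_nil, isReduced_iff_reduce_eq, reduce_invRev, hl.reduce_eq]⟩
  | a :: l, b :: m, hl, hm => by
    by_cases hab : a = b
    · subst hab
      obtain ⟨u, l', m', h1, h2, h3⟩ := exists_split l m
        hl.tail hm.tail
      exact ⟨a :: u, l', m', by simp [h1], by simp [h2], h3⟩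
    · refine ⟨[], a :: l, b :: m, rfl, rfl, List.IsChain.append
        (isReduced_iff_reduce_eq.2 (by rw [reduce_invRev, hl.reduce_eq])) hm ?_⟩
      intro c hc e he h1
      simp [invRev] at hc he
      subst hc he
      obtain ⟨a1, a2⟩ := a
      obtain ⟨b1, b2⟩ := b
      simp only at h1 ⊢
      subst h1
      cases a2 <;> cases b2 <;> simp_all

/-- The word of `k` is a beginning of the word of `h` followed by an end of that of `h⁻¹ * k`. -/
theorem exists_key (h k : FreeGroup α) : ∃ a b, a ≤ h.toWord.length ∧ b ≤ h.toWord.length ∧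
    k.toWord = h.toWord.take a ++ (h⁻¹ * k).toWord.drop b := by
  obtain ⟨u, l', m', hl, hm, hr⟩ := exists_split h.toWord k.toWord isReduced_toWord isReduced_toWord
  refine ⟨u.length, (invRev l').length, by simp [hl], by simp [hl, invRev_length], ?_⟩
  have he : h⁻¹ * k = mk (invRev l' ++ m') := by
    conv_lhs => rw [← mk_toWord (x := h), ← mk_toWord (x := k), hl, hm, ← mul_mk, ← mul_mk]
    rw [mul_inv_rev, mul_assoc, inv_mul_cancel_left, inv_mk, mul_mk]
  rw [he, toWord_mk, hr.reduce_eq, hm, hl, List.take_left, List.drop_left]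

end Vale.Agent.P165FreeProd
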